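import Vale.Agent.P287.H46.HDefs

/-!
Leaf H2 of helper674's Theorem S.
-/

namespace Vale.Agent.P287.H673

open MvPolynomial Vale.Agent.P287.H674 Vale.Agent.P287.Spec Matrix

variable {G : Fin 3 → Fin 3 → ℂ} {G1 : Fin 3 → ℂ} {g2 : ℂ} {φ : Fin 2 → Fin 3 → ℂ}

theorem tri_vvw {F : MvPolynomial (Fin 6) ℂ} (hF : F.IsHomogeneous 3) (v w : Fin 6 → ℂ) :
    6 * tri F v v w = eval (v + w) F - eval (v - w) F - 2 * eval w F := by
  rw [← tri_self hF (v + w), ← tri_self hF (v - w), ← tri_self hF w]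
  have e1 : tri F v w v = tri F v v w := tri_comm2 _ _ _ _
  have e2 : tri F w v v = tri F v v w := by rw [tri_comm1, tri_comm2]
  have e3 : tri F w v w = tri F v w w := tri_comm1 _ _ _ _
  have e4 : tri F w w v = tri F v w w := by rw [tri_comm2, tri_comm1]
  simp only [map_add, map_sub, LinearMap.add_apply, LinearMap.sub_apply, e1, e2, e3, e4]
  ring

theorem eval_FF {F : MvPolynomial (Fin 6) ℂ} (h : IsFF G G1 g2 φ F) (v : Fin 6 → ℂ) :
    eval v F = FF G G1 g2 φ ![v 0, v 1, v 2] (v 3) ![v 4, v 5] := by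
  rw [← h]
  have e : v = ![(![v 0, v 1, v 2] : Fin 3 → ℂ) 0, (![v 0, v 1, v 2] : Fin 3 → ℂ) 1,
      (![v 0, v 1, v 2] : Fin 3 → ℂ) 2, v 3, (![v 4, v 5] : Fin 2 → ℂ) 0,
      (![v 4, v 5] : Fin 2 → ℂ) 1] := by
    funext i
    fin_cases i <;> rfl
  exact congrArg (fun u => eval u F) e

/-- A point at which all directional derivatives of the normal form vanish is the origin. -/
theorem sing_FF {F : MvPolynomial (Fin 6) ℂ} (hF : SmoothCubic F) (h : IsFF G G1 g2 φ F)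
    (v : Fin 6 → ℂ)
    (hv : ∀ (z : Fin 3 → ℂ) (w : ℂ) (y : Fin 2 → ℂ),
      FF G G1 g2 φ ![v 0 + z 0, v 1 + z 1, v 2 + z 2] (v 3 + w) ![v 4 + y 0, v 5 + y 1]
      - FF G G1 g2 φ ![v 0 - z 0, v 1 - z 1, v 2 - z 2] (v 3 - w) ![v 4 - y 0, v 5 - y 1]
      - 2 * FF G G1 g2 φ z w y = 0) : v = 0 := by
  by_contra hne
  obtain ⟨u, hu⟩ := smooth_tri hF hne
  apply hu
  have h6 := tri_vvw hF.1 v u
  rw [eval_FF h, eval_FF h, eval_FF h] at h6
  have h7 := hv ![u 0, u 1, u 2] (u 3) ![u 4, u 5]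
  simp only [cons_val_zero, cons_val_one, cons_val, Pi.add_apply, Pi.sub_apply] at h6 h7
  have : 6 * tri F v v u = 0 := by
    rw [h6, h7]
  simpa using this

/-- LEAF H2 -/
theorem no_common {F : MvPolynomial (Fin 6) ℂ} (hF : SmoothCubic F) (h : IsFF G G1 g2 φ F)
    (_hG : ∀ i j, G i j = G j i)
    (η : Fin 2 → ℂ) (hη : η ≠ 0) (h0 : hh φ η = 0) : gg0 G η ≠ 0 := by
  intro hg0
  have key := sing_FF hF h ![η 0 ^ 2, 2 * η 0 * η 1, η 1 ^ 2, 0, ∑ i, φ 0 i * Spec.sq η i,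
    ∑ i, φ 1 i * Spec.sq η i] (by
      intro z w y
      simp only [hh, gg0, Spec.sq, FF, Fin.sum_univ_three, cons_val_zero, cons_val_one, cons_val] at *
      linear_combination (2 * w) * hg0 + 4 * (η 0 * y 0 + η 1 * y 1 -
        (η 0 * (φ 0 0 * z 0 + φ 0 1 * z 1 + φ 0 2 * z 2)
          + η 1 * (φ 1 0 * z 0 + φ 1 1 * z 1 + φ 1 2 * z 2))) * h0)
  apply hη
  have k0 := congrFun key 0
  have k2 := congrFun key 2
  simp at k0 k2
  funext i
  fin_cases i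
  · simpa using k0
  · simpa using k2

end Vale.Agent.P287.H673
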