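import Vale.Agent.P287.H673.HA

/-!
Leaf H1 of helper674's Theorem S: the plane quartic is smooth.
-/

namespace Vale.Agent.P287.H673

open MvPolynomial Vale.Agent.P287.H674 Vale.Agent.P287.Spec Matrix

section

variable (G : Fin 3 → Fin 3 → ℂ) (G1 : Fin 3 → ℂ) (g2 : ℂ) (φ : Fin 2 → Fin 3 → ℂ)

/-- the point of the cone, as polynomials -/
noncomputable def sqP : Fin 3 → MvPolynomial (Fin 3) ℂ := ![X 0 ^ 2, C 2 * X 0 * X 1, X 1 ^ 2]

noncomputable def g1P : MvPolynomial (Fin 3) ℂ := ∑ i, C (G1 i) * sqP i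
noncomputable def g0P : MvPolynomial (Fin 3) ℂ := ∑ i, ∑ j, C (G i j) * (sqP i * sqP j)
noncomputable def hP : MvPolynomial (Fin 3) ℂ :=
  X 0 * (∑ i, C (φ 0 i) * sqP i) + X 1 * (∑ i, C (φ 1 i) * sqP i)

/-- the quartic as a polynomial -/
noncomputable def BP : MvPolynomial (Fin 3) ℂ :=
  (X 2 ^ 2 + g1P G1) ^ 2 - C (4 * g2) * (g0P G + C 2 * (hP φ * X 2))

theorem eval_BP (v : Fin 3 → ℂ) : eval v (BP G G1 g2 φ) = BB4 G G1 g2 φ ![v 0, v 1] (v 2) := by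
  simp only [BP, g1P, g0P, hP, sqP, BB4, gg1, gg0, hh, Spec.sq, Fin.sum_univ_three, map_add,
    map_sub, map_mul, map_pow, eval_X, eval_C, cons_val_zero, cons_val_one, cons_val]
  ring

theorem sqP_hom (i : Fin 3) : (sqP i).IsHomogeneous 2 := by
  fin_cases i
  · exact (isHomogeneous_X ℂ (0 : Fin 3)).pow 2
  · have := ((isHomogeneous_X ℂ (0 : Fin 3)).C_mul 2).mul (isHomogeneous_X ℂ (1 : Fin 3))
    exact this
  · exact (isHomogeneous_X ℂ (1 : Fin 3)).pow 2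

theorem BP_hom : (BP G G1 g2 φ).IsHomogeneous 4 := by
  have h1 : (g1P G1).IsHomogeneous 2 := IsHomogeneous.sum _ _ _ fun i _ => (sqP_hom i).C_mul _
  have h0 : (g0P G).IsHomogeneous 4 := IsHomogeneous.sum _ _ _ fun i _ =>
    IsHomogeneous.sum _ _ _ fun j _ => ((sqP_hom i).mul (sqP_hom j)).C_mul _
  have hs : ∀ c : Fin 3 → ℂ, (∑ i, C (c i) * sqP i).IsHomogeneous 2 := fun c =>
    IsHomogeneous.sum _ _ _ fun i _ => (sqP_hom i).C_mul _
  have hh : (hP φ).IsHomogeneous 3 := by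
    have a := (isHomogeneous_X ℂ (0 : Fin 3)).mul (hs (φ 0))
    have b := (isHomogeneous_X ℂ (1 : Fin 3)).mul (hs (φ 1))
    exact a.add b
  have h2 : (X 2 ^ 2 + g1P G1).IsHomogeneous 2 := ((isHomogeneous_X ℂ (2 : Fin 3)).pow 2).add h1
  have h3 : (hP φ * X 2).IsHomogeneous 4 := hh.mul (isHomogeneous_X ℂ (2 : Fin 3))
  exact (h2.pow 2).sub ((h0.add (h3.C_mul 2)).C_mul _)

theorem pd2 (v : Fin 3 → ℂ) : eval v (pderiv 2 (BP G G1 g2 φ)) =
    4 * v 2 * (v 2 ^ 2 + gg1 G1 ![v 0, v 1]) - 8 * g2 * hh φ ![v 0, v 1] := by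
  simp only [BP, g1P, g0P, hP, sqP, gg1, gg0, hh, Spec.sq, Fin.sum_univ_three, map_add,
    map_sub, map_mul, map_pow, eval_X, eval_C, cons_val_zero, cons_val_one, cons_val,
    Derivation.leibniz, Derivation.leibniz_pow, pderiv_X, pderiv_C, smul_eq_mul, nsmul_eq_mul]
  simp
  ring

theorem pd0 (v : Fin 3 → ℂ) : eval v (pderiv 0 (BP G G1 g2 φ)) =
    2 * (v 2 ^ 2 + gg1 G1 ![v 0, v 1]) * (2 * (G1 0 * v 0 + G1 1 * v 1))
    - 4 * g2 * ((∑ i, ∑ j, G i j * ((![2 * v 0, 2 * v 1, 0] : Fin 3 → ℂ) i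
          * Spec.sq ![v 0, v 1] j
        + Spec.sq ![v 0, v 1] i * (![2 * v 0, 2 * v 1, 0] : Fin 3 → ℂ) j))
      + 2 * v 2 * ((∑ i, φ 0 i * Spec.sq ![v 0, v 1] i)
        + v 0 * (∑ i, φ 0 i * (![2 * v 0, 2 * v 1, 0] : Fin 3 → ℂ) i)
        + v 1 * (∑ i, φ 1 i * (![2 * v 0, 2 * v 1, 0] : Fin 3 → ℂ) i))) := by
  simp only [BP, g1P, g0P, hP, sqP, gg1, gg0, hh, Spec.sq, Fin.sum_univ_three, map_add,
    map_sub, map_mul, map_pow, eval_X, eval_C, cons_val_zero, cons_val_one, cons_val,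
    Derivation.leibniz, Derivation.leibniz_pow, pderiv_X, pderiv_C, smul_eq_mul, nsmul_eq_mul]
  simp
  ring

theorem pd1 (v : Fin 3 → ℂ) : eval v (pderiv 1 (BP G G1 g2 φ)) =
    2 * (v 2 ^ 2 + gg1 G1 ![v 0, v 1]) * (2 * (G1 1 * v 0 + G1 2 * v 1))
    - 4 * g2 * ((∑ i, ∑ j, G i j * ((![0, 2 * v 0, 2 * v 1] : Fin 3 → ℂ) i
          * Spec.sq ![v 0, v 1] j
        + Spec.sq ![v 0, v 1] i * (![0, 2 * v 0, 2 * v 1] : Fin 3 → ℂ) j))
      + 2 * v 2 * ((∑ i, φ 1 i * Spec.sq ![v 0, v 1] i)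
        + v 0 * (∑ i, φ 0 i * (![0, 2 * v 0, 2 * v 1] : Fin 3 → ℂ) i)
        + v 1 * (∑ i, φ 1 i * (![0, 2 * v 0, 2 * v 1] : Fin 3 → ℂ) i))) := by
  simp only [BP, g1P, g0P, hP, sqP, gg1, gg0, hh, Spec.sq, Fin.sum_univ_three, map_add,
    map_sub, map_mul, map_pow, eval_X, eval_C, cons_val_zero, cons_val_one, cons_val,
    Derivation.leibniz, Derivation.leibniz_pow, pderiv_X, pderiv_C, smul_eq_mul, nsmul_eq_mul]
  simp
  ring

variable {G G1 g2 φ}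

theorem sing_core {F : MvPolynomial (Fin 6) ℂ} (hF : SmoothCubic F) (h : IsFF G G1 g2 φ F)
    (hG : ∀ i j, G i j = G j i) (a b w l L0 L1 L2 : ℂ)
    (hL0 : L0 = w * (2 * (∑ j, G 0 j * Spec.sq ![a, b] j) + w * G1 0)
      - (∑ i, φ 0 i * Spec.sq ![a, b] i) ^ 2 - 2 * hh φ ![a, b] * (a * φ 0 0 + b * φ 1 0))
    (hL1 : L1 = w * (2 * (∑ j, G 1 j * Spec.sq ![a, b] j) + w * G1 1)
      - (∑ i, φ 0 i * Spec.sq ![a, b] i) * (∑ i, φ 1 i * Spec.sq ![a, b] i)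
      - 2 * hh φ ![a, b] * (a * φ 0 1 + b * φ 1 1))
    (hL2 : L2 = w * (2 * (∑ j, G 2 j * Spec.sq ![a, b] j) + w * G1 2)
      - (∑ i, φ 1 i * Spec.sq ![a, b] i) ^ 2 - 2 * hh φ ![a, b] * (a * φ 0 2 + b * φ 1 2))
    (hD : gg0 G ![a, b] + 2 * w * gg1 G1 ![a, b] + 3 * g2 * w ^ 2 = 0)
    (e0 : L0 + l ^ 2 * b ^ 2 = 0) (e1 : L1 - l ^ 2 * (a * b) = 0) (e2 : L2 + l ^ 2 * a ^ 2 = 0) :
    a = 0 ∧ b = 0 := by
  have g10 := hG 1 0
  have g20 := hG 2 0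
  have g21 := hG 2 1
  subst hL0 hL1 hL2
  have key := sing_FF hF h ![a ^ 2, 2 * a * b, b ^ 2, w, -(l * b), l * a] (by
      intro z w' y
      simp only [hh, gg0, gg1, Spec.sq, FF, Fin.sum_univ_three, cons_val_zero, cons_val_one,
        cons_val, g10, g20, g21] at *
      linear_combination (2 * w') * hD + 2 * z 0 * e0 + 2 * z 1 * e1 + 2 * z 2 * e2)
  have k0 := congrFun key 0
  have k2 := congrFun key 2
  simp at k0 k2
  exact ⟨k0, k2⟩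

/-- LEAF H1 -/
theorem smooth_quartic {F : MvPolynomial (Fin 6) ℂ} (hF : SmoothCubic F) (h : IsFF G G1 g2 φ F)
    (hG : ∀ i j, G i j = G j i) (hg2 : g2 ≠ 0) (B : MvPolynomial (Fin 3) ℂ)
    (hB : ∀ v : Fin 3 → ℂ, eval v B = BB4 G G1 g2 φ ![v 0, v 1] (v 2))
    (v : Fin 3 → ℂ) (hv : v ≠ 0) : ∃ i, eval v (pderiv i B) ≠ 0 := by
  obtain rfl : B = BP G G1 g2 φ := MvPolynomial.funext fun v => by rw [hB, eval_BP]
  by_contra hcon
  push Not at hcon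
  have h0 := hcon 0
  have h1 := hcon 1
  have h2 := hcon 2
  have hE := congrArg (eval v) (BP_hom G G1 g2 φ).sum_X_mul_pderiv
  simp only [Fin.sum_univ_three, map_add, map_mul, h0, h1, h2, mul_zero, add_zero] at hE
  rw [pd0] at h0
  rw [pd1] at h1
  rw [pd2] at h2
  have hE' : BB4 G G1 g2 φ ![v 0, v 1] (v 2) = 0 := by
    rw [← eval_BP]
    have : (4 : ℂ) * eval v (BP G G1 g2 φ) = 0 := by
      rw [nsmul_eq_mul, map_mul] at hE
      simpa using hE.symm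
    simpa using this
  obtain ⟨a, ha⟩ : ∃ a, a = v 0 := ⟨_, rfl⟩
  obtain ⟨b, hb⟩ : ∃ b, b = v 1 := ⟨_, rfl⟩
  obtain ⟨k, hk⟩ : ∃ k, k = v 2 := ⟨_, rfl⟩
  rw [← ha, ← hb, ← hk] at h0 h1 h2 hE'
  obtain ⟨w, hw⟩ : ∃ w, k ^ 2 + gg1 G1 ![a, b] = -2 * g2 * w :=
    ⟨-(k ^ 2 + gg1 G1 ![a, b]) / (2 * g2), by field_simp⟩
  have g10 := hG 1 0
  have g20 := hG 2 0
  have g21 := hG 2 1
  -- first relation
  have h2' : hh φ ![a, b] + k * w = 0 := by
    have : (8 * g2) * (hh φ ![a, b] + k * w) = 0 := by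
      rw [hw] at h2
      linear_combination -h2
    rcases mul_eq_zero.mp this with hz | hz
    · exact absurd (by simpa using hz) hg2
    · exact hz
  have hg : gg0 G ![a, b] + 2 * hh φ ![a, b] * k = g2 * w ^ 2 := by
    have : (4 * g2) * (gg0 G ![a, b] + 2 * hh φ ![a, b] * k - g2 * w ^ 2) = 0 := by
      unfold BB4 at hE'
      rw [hw] at hE'
      linear_combination -hE'
    rcases mul_eq_zero.mp this with hz | hz
    · exact absurd (by simpa using hz) hg2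
    · linear_combination hz
  have hD : gg0 G ![a, b] + 2 * w * gg1 G1 ![a, b] + 3 * g2 * w ^ 2 = 0 := by
    linear_combination hg + 2 * w * hw - 2 * k * h2'
  rw [hw] at h0 h1
  have c0 : 2 * w * (G1 0 * a + G1 1 * b)
      + (∑ i, ∑ j, G i j * ((![2 * a, 2 * b, 0] : Fin 3 → ℂ) i * Spec.sq ![a, b] j
        + Spec.sq ![a, b] i * (![2 * a, 2 * b, 0] : Fin 3 → ℂ) j))
      + 2 * k * ((∑ i, φ 0 i * Spec.sq ![a, b] i)
        + a * (∑ i, φ 0 i * (![2 * a, 2 * b, 0] : Fin 3 → ℂ) i)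
        + b * (∑ i, φ 1 i * (![2 * a, 2 * b, 0] : Fin 3 → ℂ) i)) = 0 := by
    have : (4 * g2) * (2 * w * (G1 0 * a + G1 1 * b)
      + (∑ i, ∑ j, G i j * ((![2 * a, 2 * b, 0] : Fin 3 → ℂ) i * Spec.sq ![a, b] j
        + Spec.sq ![a, b] i * (![2 * a, 2 * b, 0] : Fin 3 → ℂ) j))
      + 2 * k * ((∑ i, φ 0 i * Spec.sq ![a, b] i)
        + a * (∑ i, φ 0 i * (![2 * a, 2 * b, 0] : Fin 3 → ℂ) i)
        + b * (∑ i, φ 1 i * (![2 * a, 2 * b, 0] : Fin 3 → ℂ) i))) = 0 := by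
      linear_combination -h0
    rcases mul_eq_zero.mp this with hz | hz
    · exact absurd (by simpa using hz) hg2
    · exact hz
  have c1 : 2 * w * (G1 1 * a + G1 2 * b)
      + (∑ i, ∑ j, G i j * ((![0, 2 * a, 2 * b] : Fin 3 → ℂ) i * Spec.sq ![a, b] j
        + Spec.sq ![a, b] i * (![0, 2 * a, 2 * b] : Fin 3 → ℂ) j))
      + 2 * k * ((∑ i, φ 1 i * Spec.sq ![a, b] i)
        + a * (∑ i, φ 0 i * (![0, 2 * a, 2 * b] : Fin 3 → ℂ) i)
        + b * (∑ i, φ 1 i * (![0, 2 * a, 2 * b] : Fin 3 → ℂ) i)) = 0 := by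
    have : (4 * g2) * (2 * w * (G1 1 * a + G1 2 * b)
      + (∑ i, ∑ j, G i j * ((![0, 2 * a, 2 * b] : Fin 3 → ℂ) i * Spec.sq ![a, b] j
        + Spec.sq ![a, b] i * (![0, 2 * a, 2 * b] : Fin 3 → ℂ) j))
      + 2 * k * ((∑ i, φ 1 i * Spec.sq ![a, b] i)
        + a * (∑ i, φ 0 i * (![0, 2 * a, 2 * b] : Fin 3 → ℂ) i)
        + b * (∑ i, φ 1 i * (![0, 2 * a, 2 * b] : Fin 3 → ℂ) i))) = 0 := by
      linear_combination -h1
    rcases mul_eq_zero.mp this with hz | hz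
    · exact absurd (by simpa using hz) hg2
    · exact hz
  obtain ⟨L0, hL0⟩ : ∃ L, L = w * (2 * (∑ j, G 0 j * Spec.sq ![a, b] j) + w * G1 0)
      - (∑ i, φ 0 i * Spec.sq ![a, b] i) ^ 2
      - 2 * hh φ ![a, b] * (a * φ 0 0 + b * φ 1 0) := ⟨_, rfl⟩
  obtain ⟨L1, hL1⟩ : ∃ L, L = w * (2 * (∑ j, G 1 j * Spec.sq ![a, b] j) + w * G1 1)
      - (∑ i, φ 0 i * Spec.sq ![a, b] i) * (∑ i, φ 1 i * Spec.sq ![a, b] i)
      - 2 * hh φ ![a, b] * (a * φ 0 1 + b * φ 1 1) := ⟨_, rfl⟩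
  obtain ⟨L2, hL2⟩ : ∃ L, L = w * (2 * (∑ j, G 2 j * Spec.sq ![a, b] j) + w * G1 2)
      - (∑ i, φ 1 i * Spec.sq ![a, b] i) ^ 2
      - 2 * hh φ ![a, b] * (a * φ 0 2 + b * φ 1 2) := ⟨_, rfl⟩
  have t0 : a * L0 + b * L1 = 0 := by
    have : 2 * (a * L0 + b * L1) = 0 := by
      rw [hL0, hL1]
      simp only [hh, gg0, gg1, Spec.sq, Fin.sum_univ_three, cons_val_zero, cons_val_one,
        cons_val, g10, g20, g21] at c0 h2' ⊢
      linear_combination w * c0 - 2 * ((φ 0 0 * a ^ 2 + φ 0 1 * (2 * a * b) + φ 0 2 * b ^ 2)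
        + a * (φ 0 0 * (2 * a) + φ 0 1 * (2 * b) + φ 0 2 * 0)
        + b * (φ 1 0 * (2 * a) + φ 1 1 * (2 * b) + φ 1 2 * 0)) * h2'
    simpa using this
  have t1 : a * L1 + b * L2 = 0 := by
    have : 2 * (a * L1 + b * L2) = 0 := by
      rw [hL1, hL2]
      simp only [hh, gg0, gg1, Spec.sq, Fin.sum_univ_three, cons_val_zero, cons_val_one,
        cons_val, g10, g20, g21] at c1 h2' ⊢
      linear_combination w * c1 - 2 * ((φ 1 0 * a ^ 2 + φ 1 1 * (2 * a * b) + φ 1 2 * b ^ 2)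
        + a * (φ 0 0 * 0 + φ 0 1 * (2 * a) + φ 0 2 * (2 * b))
        + b * (φ 1 0 * 0 + φ 1 1 * (2 * a) + φ 1 2 * (2 * b))) * h2'
    simpa using this
  have hab : a = 0 ∧ b = 0 := by
    by_cases ha0 : a = 0
    · by_cases hb0 : b = 0
      · exact ⟨ha0, hb0⟩
      · obtain ⟨l, hl⟩ := IsAlgClosed.exists_pow_nat_eq (-L0 / b ^ 2) (n := 2) (by norm_num)
        have f0 : L0 + l ^ 2 * b ^ 2 = 0 := by rw [hl]; field_simp; ring
        have f1 : L1 - l ^ 2 * (a * b) = 0 := by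
          have : b * (L1 - l ^ 2 * (a * b)) = 0 := by linear_combination t0 - a * f0
          exact (mul_eq_zero.mp this).resolve_left hb0
        have f2 : L2 + l ^ 2 * a ^ 2 = 0 := by
          have : b * (L2 + l ^ 2 * a ^ 2) = 0 := by linear_combination t1 - a * f1
          exact (mul_eq_zero.mp this).resolve_left hb0
        exact sing_core hF h hG a b w l L0 L1 L2 hL0 hL1 hL2 hD f0 f1 f2
    · obtain ⟨l, hl⟩ := IsAlgClosed.exists_pow_nat_eq (-L2 / a ^ 2) (n := 2) (by norm_num)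
      have f2 : L2 + l ^ 2 * a ^ 2 = 0 := by rw [hl]; field_simp; ring
      have f1 : L1 - l ^ 2 * (a * b) = 0 := by
        have : a * (L1 - l ^ 2 * (a * b)) = 0 := by linear_combination t1 - b * f2
        exact (mul_eq_zero.mp this).resolve_left ha0
      have f0 : L0 + l ^ 2 * b ^ 2 = 0 := by
        have : a * (L0 + l ^ 2 * b ^ 2) = 0 := by linear_combination t0 - b * f1
        exact (mul_eq_zero.mp this).resolve_left ha0
      exact sing_core hF h hG a b w l L0 L1 L2 hL0 hL1 hL2 hD f0 f1 f2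
  obtain ⟨rfl, rfl⟩ := hab
  have hk0 : k = 0 := by
    simp [gg1, hh, Spec.sq, Fin.sum_univ_three] at hw h2'
    rcases h2' with hz | hz
    · exact hz
    · rw [hz] at hw
      simpa using hw
  apply hv
  funext i
  fin_cases i
  · exact ha.symm
  · exact hb.symm
  · exact hk.symm.trans hk0

end

end Vale.Agent.P287.H673
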