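import Vale.Agent.P287.H673.FunField

/-!
P287, helper673: a smooth cubic form in six variables is a prime element.
-/

namespace Vale.Agent.P287.H673

open MvPolynomial Vale.Agent.P287.H674

theorem eval_lin_add {l : MvPolynomial (Fin 6) ℂ} (hl : l.IsHomogeneous 1) (u w : Fin 6 → ℂ) :
    eval (u + w) l = eval u l + eval w l := by
  have h : l ∈ Submodule.span ℂ (Set.range (X : Fin 6 → MvPolynomial (Fin 6) ℂ)) := by
    rw [← homogeneousSubmodule_one_eq_span_X]
    exact hl
  clear hl
  induction h using Submodule.span_induction with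
  | mem x hx =>
    obtain ⟨i, rfl⟩ := hx
    simp
  | zero => simp
  | add x y _ _ hx hy =>
    simp only [map_add, hx, hy]
    ring
  | smul a x _ hx => simp only [smul_eval, hx]; ring

theorem aeval_eval {σ : Type*} (v : σ → ℂ) (p : MvPolynomial σ ℂ) : aeval v p = eval v p := by
  rw [aeval_def, Algebra.algebraMap_self, eval₂_id]

theorem eval_hom_smul {n : ℕ} {p : MvPolynomial (Fin n) ℂ} {d : ℕ} (hp : p.IsHomogeneous d)
    (r : ℂ) (v : Fin n → ℂ) : eval (r • v) p = r ^ d * eval v p := by
  have h := aeval_mul_left hp r v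
  rw [aeval_eval, aeval_eval] at h
  exact h

/-- a linear form and a quadratic form in six variables have a common nonzero zero -/
theorem common_zero {l q : MvPolynomial (Fin 6) ℂ} (hl : l.IsHomogeneous 1)
    (hq : q.IsHomogeneous 2) : ∃ v : Fin 6 → ℂ, v ≠ 0 ∧ eval v l = 0 ∧ eval v q = 0 := by
  let L : (Fin 6 → ℂ) →ₗ[ℂ] ℂ :=
    { toFun := fun v => eval v l
      map_add' := eval_lin_add hl
      map_smul' := fun r v => by
        rw [eval_hom_smul hl, pow_one, RingHom.id_apply, smul_eq_mul] }
  have hrk : 1 < Module.finrank ℂ (LinearMap.ker L) := by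
    have h1 := LinearMap.finrank_range_add_finrank_ker L
    have h2 : Module.finrank ℂ (LinearMap.range L) ≤ 1 := by
      have := Submodule.finrank_le (LinearMap.range L)
      rwa [Module.finrank_self] at this
    rw [Module.finrank_fintype_fun_eq_card, Fintype.card_fin] at h1
    omega
  have : Nontrivial (LinearMap.ker L) := Module.nontrivial_of_finrank_pos (R := ℂ) (by omega)
  obtain ⟨u, hu⟩ := exists_ne (0 : LinearMap.ker L)
  obtain ⟨w, hw⟩ := exists_linearIndependent_pair_of_one_lt_finrank hrk hu
  have hind := LinearIndependent.pair_iff.mp hw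
  have hzero : ∀ s t : ℂ, eval (s • (u : Fin 6 → ℂ) + t • (w : Fin 6 → ℂ)) l = 0 := by
    intro s t
    have := (s • u + t • w).2
    rwa [LinearMap.mem_ker] at this
  have hcomb : ∀ s t : ℂ, s ≠ 0 ∨ t ≠ 0 →
      s • (u : Fin 6 → ℂ) + t • (w : Fin 6 → ℂ) ≠ 0 := by
    intro s t hst h0
    have h1 : s • u + t • w = 0 := Subtype.ext (by simpa using h0)
    obtain ⟨h2, h3⟩ := hind s t h1
    rcases hst with h4 | h4
    · exact h4 h2
    · exact h4 h3
  -- the restriction of `q` to the pencil
  let p : Polynomial ℂ := aeval (fun k => Polynomial.C ((u : Fin 6 → ℂ) k) +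
    Polynomial.X * Polynomial.C ((w : Fin 6 → ℂ) k)) q
  have hp : ∀ s : ℂ, p.eval s = eval ((u : Fin 6 → ℂ) + s • (w : Fin 6 → ℂ)) q := by
    intro s
    have e : p.eval s = (Polynomial.aeval s : Polynomial ℂ →ₐ[ℂ] ℂ) p := by
      rw [Polynomial.coe_aeval_eq_eval]
    rw [e, ← AlgHom.comp_apply, comp_aeval, ← aeval_eval]
    congr 2
    funext k
    simp
    ring
  by_cases hroot : ∃ s, p.eval s = 0
  · obtain ⟨s, hs⟩ := hroot
    refine ⟨(1 : ℂ) • (u : Fin 6 → ℂ) + s • (w : Fin 6 → ℂ), hcomb 1 s (Or.inl one_ne_zero),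
      hzero 1 s, ?_⟩
    rw [one_smul, ← hp, hs]
  · have hdeg : p.degree = 0 := by
      by_contra hcon
      exact hroot (IsAlgClosed.exists_root p hcon)
    have hpc := Polynomial.eq_C_of_degree_eq_zero hdeg
    set c := p.coeff 0 with hc
    refine ⟨(0 : ℂ) • (u : Fin 6 → ℂ) + (1 : ℂ) • (w : Fin 6 → ℂ), hcomb 0 1
      (Or.inr one_ne_zero), hzero 0 1, ?_⟩
    let r : Polynomial ℂ := aeval (fun k => Polynomial.X * Polynomial.C ((u : Fin 6 → ℂ) k) +
      Polynomial.C ((w : Fin 6 → ℂ) k)) q
    have hr : ∀ s : ℂ, r.eval s = eval (s • (u : Fin 6 → ℂ) + (w : Fin 6 → ℂ)) q := by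
      intro s
      have e : r.eval s = (Polynomial.aeval s : Polynomial ℂ →ₐ[ℂ] ℂ) r := by
        rw [Polynomial.coe_aeval_eq_eval]
      rw [e, ← AlgHom.comp_apply, comp_aeval, ← aeval_eval]
      congr 2
      funext k
      simp
      ring
    have hrc : r = Polynomial.C c * Polynomial.X ^ 2 := by
      apply Polynomial.eq_of_infinite_eval_eq
      refine Set.Infinite.mono (s := {0}ᶜ) ?_ (Set.finite_singleton (0 : ℂ)).infinite_compl
      intro s hs
      have hs0 : s ≠ 0 := hs
      change r.eval s = _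
      rw [hr]
      have e : s • (u : Fin 6 → ℂ) + (w : Fin 6 → ℂ) =
          s • ((u : Fin 6 → ℂ) + s⁻¹ • (w : Fin 6 → ℂ)) := by
        rw [smul_add, smul_smul, mul_inv_cancel₀ hs0, one_smul]
      rw [e, eval_hom_smul hq, ← hp, hpc]
      simp only [Polynomial.eval_C, Polynomial.eval_mul, Polynomial.eval_pow, Polynomial.eval_X]
      ring
    have h0 := hr 0
    rw [hrc] at h0
    simp only [Polynomial.eval_C, Polynomial.eval_mul, Polynomial.eval_pow, Polynomial.eval_X] at h0
    rw [one_smul]
    rw [← h0]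
    ring

/-- the product of the top homogeneous components is the top component of the product -/
theorem top_mul (G H : MvPolynomial (Fin 6) ℂ) :
    homogeneousComponent (G.totalDegree + H.totalDegree) (G * H) =
      homogeneousComponent G.totalDegree G * homogeneousComponent H.totalDegree H := by
  have e : G * H = (∑ i ∈ Finset.range (G.totalDegree + 1), homogeneousComponent i G) *
      (∑ i ∈ Finset.range (H.totalDegree + 1), homogeneousComponent i H) := by
    rw [sum_homogeneousComponent, sum_homogeneousComponent]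
  rw [e, Finset.sum_mul_sum, map_sum]
  rw [Finset.sum_eq_single G.totalDegree]
  · rw [map_sum, Finset.sum_eq_single H.totalDegree]
    · rw [homogeneousComponent_of_mem (((homogeneousComponent_isHomogeneous _ _).mul
        (homogeneousComponent_isHomogeneous _ _)) : _ ∈ homogeneousSubmodule (Fin 6) ℂ _)]
      simp
    · intro b hb hne
      rw [homogeneousComponent_of_mem (((homogeneousComponent_isHomogeneous _ _).mul
        (homogeneousComponent_isHomogeneous _ _)) : _ ∈ homogeneousSubmodule (Fin 6) ℂ _)]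
      rw [if_neg (by omega)]
    · intro h
      exact absurd (Finset.mem_range.mpr (Nat.lt_succ_self _)) h
  · intro a ha hne
    rw [map_sum]
    refine Finset.sum_eq_zero fun b hb => ?_
    rw [homogeneousComponent_of_mem (((homogeneousComponent_isHomogeneous _ _).mul
      (homogeneousComponent_isHomogeneous _ _)) : _ ∈ homogeneousSubmodule (Fin 6) ℂ _)]
    have h1 := Finset.mem_range.mp ha
    have h2 := Finset.mem_range.mp hb
    rw [if_neg (by omega)]
  · intro h
    exact absurd (Finset.mem_range.mpr (Nat.lt_succ_self _)) h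

theorem smooth_ne_zero {F : MvPolynomial (Fin 6) ℂ} (hF : SmoothCubic F) : F ≠ 0 := by
  rintro rfl
  obtain ⟨i, hi⟩ := hF.2 (fun _ => 1) (fun h => one_ne_zero (congrFun h 0))
  apply hi
  rw [map_zero, map_zero]

theorem no_factor {F G H : MvPolynomial (Fin 6) ℂ} (hF : SmoothCubic F)
    (hG : G.IsHomogeneous 1) (hH : H.IsHomogeneous 2) (h : F = G * H) : False := by
  obtain ⟨v, hv, h1, h2⟩ := common_zero hG hH
  obtain ⟨i, hi⟩ := hF.2 v hv
  apply hi
  rw [h, Derivation.leibniz, map_add, smul_eq_mul, smul_eq_mul, map_mul, map_mul, h1, h2]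
  ring

theorem degree_zero_of_isUnit {F : MvPolynomial (Fin 6) ℂ} (hu : IsUnit F) :
    F.totalDegree = 0 := by
  obtain ⟨G, hG⟩ := hu.exists_right_inv
  have hF0 : F ≠ 0 := hu.ne_zero
  have hG0 : G ≠ 0 := by
    rintro rfl
    rw [mul_zero] at hG
    exact zero_ne_one hG
  have h := totalDegree_mul_of_isDomain hF0 hG0
  rw [hG, totalDegree_one] at h
  omega

theorem prime_of_smooth {F : MvPolynomial (Fin 6) ℂ} (hF : SmoothCubic F) : Prime F := by
  have hF0 := smooth_ne_zero hF
  rw [← UniqueFactorizationMonoid.irreducible_iff_prime]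
  refine ⟨?_, ?_⟩
  · intro hu
    have h1 := degree_zero_of_isUnit hu
    rw [hF.1.totalDegree hF0] at h1
    omega
  · intro G H hGH
    have hG0 : G ≠ 0 := by rintro rfl; rw [zero_mul] at hGH; exact hF0 hGH
    have hH0 : H ≠ 0 := by rintro rfl; rw [mul_zero] at hGH; exact hF0 hGH
    have hd : G.totalDegree + H.totalDegree = 3 := by
      rw [← totalDegree_mul_of_isDomain hG0 hH0, ← hGH, hF.1.totalDegree hF0]
    have ht := top_mul G H
    rw [hd, ← hGH, homogeneousComponent_of_mem (hF.1 : F ∈ homogeneousSubmodule (Fin 6) ℂ 3),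
      if_pos rfl] at ht
    have hunit : ∀ P : MvPolynomial (Fin 6) ℂ, P ≠ 0 → P.totalDegree = 0 → IsUnit P := by
      intro P hP0 hP
      rw [totalDegree_eq_zero_iff_eq_C] at hP
      rw [hP]
      refine IsUnit.map C ?_
      rw [isUnit_iff_ne_zero]
      intro h0
      apply hP0
      rw [hP, h0, C_0]
    have h4 : G.totalDegree = 0 ∨ G.totalDegree = 1 ∨ G.totalDegree = 2 ∨ H.totalDegree = 0 := by
      omega
    rcases h4 with h4 | h4 | h4 | h4
    · exact Or.inl (hunit G hG0 h4)
    · exfalso
      have h5 : H.totalDegree = 2 := by omega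
      rw [h4, h5] at ht
      exact no_factor hF (homogeneousComponent_isHomogeneous _ _)
        (homogeneousComponent_isHomogeneous _ _) ht
    · exfalso
      have h5 : H.totalDegree = 1 := by omega
      rw [h4, h5, mul_comm] at ht
      exact no_factor hF (homogeneousComponent_isHomogeneous _ _)
        (homogeneousComponent_isHomogeneous _ _) ht
    · exact Or.inr (hunit H hH0 h4)

/-- The function field of the cubic fourfold `V(F)` is purely transcendental of degree four:
every affine chart `x_i = 1` is integral and its fraction field is `ℂ(t_1, t_2, t_3, t_4)`. -/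
def RationalFunctionField (F : MvPolynomial (Fin 6) ℂ) : Prop :=
  ∀ i : Fin 6, IsDomain (Chart F i) ∧
    Nonempty (FractionRing (Chart F i) ≃ₐ[ℂ] FractionRing (MvPolynomial (Fin 4) ℂ))

theorem rationalFunctionField_of {F : MvPolynomial (Fin 6) ℂ} (hF : SmoothCubic F)
    (hR : RationalHypersurface F) : RationalFunctionField F := by
  obtain ⟨d, e, φ, ψ, h, g, hφ, hψ, h1, hh, hg, h3, h2⟩ := hR
  intro i
  exact chart_field (prime_of_smooth hF) hF.1 hφ hψ h1 hh hg h3 h2 i

end Vale.Agent.P287.H673
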