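import Vale.Agent.P287.H673.FA
import Vale.Agent.P287.H673.HA

/-!
Steps (1) and (2) of leaf F of helper674's Theorem S, final form.
-/

namespace Vale.Agent.P287.H673

open MvPolynomial Vale.Agent.P287.H674 Matrix

theorem IsHP_comp {d m : ℕ} {f : (Fin 3 → ℂ) → ℂ} (hf : IsHP 3 d f) {g : Fin 3 → (Fin 2 → ℂ) → ℂ}
    (hg : ∀ i, IsHP 2 m (g i)) : IsHP 2 (m * d) (fun v => f (fun i => g i v)) := by
  obtain ⟨P, hP, hPe⟩ := hf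
  choose q hq hqe using hg
  refine ⟨aeval q P, hP.aeval q hq, fun v => ?_⟩
  rw [eval_aeval, hPe]
  have e : (fun i => eval v (q i)) = fun i => g i v := funext fun i => hqe i v
  rw [e]

/-- step (1): the quadratic form `a` is nondegenerate -/
theorem l_ne {F : MvPolynomial (Fin 6) ℂ} (hF : SmoothCubic F)
    (b : Module.Basis (Fin 6) ℂ (Fin 6 → ℂ)) (l : Fin 3 → ℂ) (Q : (Fin 3 → ℂ) → ℂ)
    (C : (Fin 3 → ℂ) → ℂ) (hQ : IsHP 3 2 Q) (hC : IsHP 3 3 C)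
    (h : ∀ (x : ℂ) (z : Fin 3 → ℂ) (y : Fin 2 → ℂ),
      eval (x • b 0 + z 0 • b 1 + z 1 • b 2 + z 2 • b 3 + y 0 • b 4 + y 1 • b 5) F =
      x ^ 2 * (l 0 * z 0 + l 1 * z 1 + l 2 * z 2) + x * Q z + C z
        + (z 0 * y 0 ^ 2 + z 1 * y 0 * y 1 + z 2 * y 1 ^ 2)) : l 1 ^ 2 ≠ l 0 * l 2 := by
  intro hl
  obtain ⟨y0, hy0⟩ := IsAlgClosed.exists_pow_nat_eq (-l 0) (n := 2) (by norm_num)
  obtain ⟨y1, hy1, hy01⟩ : ∃ y1 : ℂ, y1 ^ 2 = -l 2 ∧ y0 * y1 = -l 1 := by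
    obtain ⟨y1, hy1⟩ := IsAlgClosed.exists_pow_nat_eq (-l 2) (n := 2) (by norm_num)
    have h1 : (y0 * y1) ^ 2 = (-l 1) ^ 2 := by
      linear_combination y0 ^ 2 * hy1 - l 2 * hy0 - hl
    rcases sq_eq_sq_iff_eq_or_eq_neg.mp h1 with h2 | h2
    · exact ⟨y1, hy1, h2⟩
    · exact ⟨-y1, by rw [neg_sq]; exact hy1, by linear_combination -h2⟩
  have hv : b 0 + y0 • b 4 + y1 • b 5 ≠ 0 := by
    intro h0
    have h1 := congrArg (fun w => b.repr w 0) h0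
    simp at h1
  obtain ⟨w, hw⟩ := smooth_tri hF hv
  apply hw
  have h6 := tri_vvw hF.1 (b 0 + y0 • b 4 + y1 • b 5) w
  obtain ⟨x, z, y, hwe⟩ : ∃ (x : ℂ) (z : Fin 3 → ℂ) (y : Fin 2 → ℂ),
      w = x • b 0 + z 0 • b 1 + z 1 • b 2 + z 2 • b 3 + y 0 • b 4 + y 1 • b 5 := by
    refine ⟨b.repr w 0, ![b.repr w 1, b.repr w 2, b.repr w 3], ![b.repr w 4, b.repr w 5], ?_⟩
    have h1 := b.sum_repr w
    rw [Fin.sum_univ_six] at h1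
    exact h1.symm
  have e1 : b 0 + y0 • b 4 + y1 • b 5 + w = (1 + x) • b 0 + z 0 • b 1 + z 1 • b 2 + z 2 • b 3
      + (![y0 + y 0, y1 + y 1] : Fin 2 → ℂ) 0 • b 4
      + (![y0 + y 0, y1 + y 1] : Fin 2 → ℂ) 1 • b 5 := by
    rw [hwe]
    simp only [cons_val_zero, cons_val_one, cons_val_fin_one]
    module
  have e2 : b 0 + y0 • b 4 + y1 • b 5 - w = (1 - x) • b 0 + (-z) 0 • b 1 + (-z) 1 • b 2
      + (-z) 2 • b 3 + (![y0 - y 0, y1 - y 1] : Fin 2 → ℂ) 0 • b 4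
      + (![y0 - y 0, y1 - y 1] : Fin 2 → ℂ) 1 • b 5 := by
    rw [hwe]
    simp only [cons_val_zero, cons_val_one, cons_val_fin_one, Pi.neg_apply]
    module
  have hQn : Q (-z) = Q z := by
    have := hQ.map_smul (-1) z
    rw [neg_one_smul] at this
    rw [this]; ring
  have hCn : C (-z) = - C z := by
    have := hC.map_smul (-1) z
    rw [neg_one_smul] at this
    rw [this]; ring
  rw [e1, e2, h, h, hwe, h, hQn, hCn] at h6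
  rw [← hwe] at h6
  simp only [cons_val_zero, cons_val_one, cons_val_fin_one, Pi.neg_apply] at h6
  have : 6 * tri F (b 0 + y0 • b 4 + y1 • b 5) (b 0 + y0 • b 4 + y1 • b 5) w = 0 := by
    rw [h6]
    linear_combination 2 * z 0 * hy0 + 2 * z 1 * hy01 + 2 * z 2 * hy1
  simpa using this

/-- steps (1) and (2) -/
theorem exists_theta_FB {F : MvPolynomial (Fin 6) ℂ} (hF : SmoothCubic F)
    (b : Module.Basis (Fin 6) ℂ (Fin 6 → ℂ)) (l : Fin 3 → ℂ) (Q : (Fin 3 → ℂ) → ℂ)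
    (C : (Fin 3 → ℂ) → ℂ) (hQ : IsHP 3 2 Q) (hC : IsHP 3 3 C)
    (h : ∀ (x : ℂ) (z : Fin 3 → ℂ) (y : Fin 2 → ℂ),
      eval (x • b 0 + z 0 • b 1 + z 1 • b 2 + z 2 • b 3 + y 0 • b 4 + y 1 • b 5) F =
      x ^ 2 * (l 0 * z 0 + l 1 * z 1 + l 2 * z 2) + x * Q z + C z
        + (z 0 * y 0 ^ 2 + z 1 * y 0 * y 1 + z 2 * y 1 ^ 2)) :
    ∃ (th : Fin 3 → ℂ) (u : Fin 4 → ℂ), ∀ e : Fin 2 → ℂ,
      (l 0 * e 0 ^ 2 + 2 * l 1 * e 0 * e 1 + l 2 * e 1 ^ 2)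
        * (th 0 * e 0 ^ 2 + th 1 * e 0 * e 1 + th 2 * e 1 ^ 2) ^ 2
      + Q ![e 0 ^ 2, 2 * e 0 * e 1, e 1 ^ 2]
        * (th 0 * e 0 ^ 2 + th 1 * e 0 * e 1 + th 2 * e 1 ^ 2)
      + C ![e 0 ^ 2, 2 * e 0 * e 1, e 1 ^ 2]
      + (u 0 * e 0 ^ 3 + u 1 * e 0 ^ 2 * e 1 + u 2 * e 0 * e 1 ^ 2 + u 3 * e 1 ^ 3) ^ 2 = 0 := by
  have c0 : IsHP 2 1 (fun e : Fin 2 → ℂ => e 0) := IsHP.coord 0
  have c1 : IsHP 2 1 (fun e : Fin 2 → ℂ => e 1) := IsHP.coord 1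
  have hs : ∀ i, IsHP 2 2 (fun e : Fin 2 → ℂ =>
      (![e 0 ^ 2, 2 * e 0 * e 1, e 1 ^ 2] : Fin 3 → ℂ) i) := by
    intro i
    fin_cases i
    · exact (c0.mul c0).congr fun v => by simp [sq]
    · exact ((c0.mul c1).cmul 2).congr fun v => by simp [mul_assoc]
    · exact (c1.mul c1).congr fun v => by simp [sq]
  have hb : IsHP 2 4 (fun e : Fin 2 → ℂ => Q ![e 0 ^ 2, 2 * e 0 * e 1, e 1 ^ 2]) :=
    (IsHP_comp hQ hs)
  have hc : IsHP 2 6 (fun e : Fin 2 → ℂ => C ![e 0 ^ 2, 2 * e 0 * e 1, e 1 ^ 2]) :=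
    (IsHP_comp hC hs)
  exact exists_theta l (l_ne hF b l Q C hQ hC h) hb hc

end Vale.Agent.P287.H673
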