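import Vale.Agent.P287.H674.Crit
import Vale.Agent.P287.H46.CommonZero

/-!
Steps (1) and (2) of leaf F of helper674's Theorem S: the equation
`a θ^2 + b θ + c + u^2 = 0` in binary forms.
-/

namespace Vale.Agent.P287.H673

open MvPolynomial Vale.Agent.P287.H674 Matrix

theorem poly_eval_aeval (g : Fin 2 → Polynomial ℂ) (P : MvPolynomial (Fin 2) ℂ) (t : ℂ) :
    Polynomial.eval t (aeval g P) = eval (fun i => Polynomial.eval t (g i)) P := by
  induction P using MvPolynomial.induction_on with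
  | C a => rw [algHom_C, eval_C]; exact Polynomial.eval_C
  | add p q hp hq => rw [map_add, Polynomial.eval_add, map_add, hp, hq]
  | mul_X p i hp => rw [map_mul, Polynomial.eval_mul, map_mul, hp, aeval_X, eval_X]

/-- a binary sextic with seven zeros vanishes -/
theorem zero_of_seven {f : (Fin 2 → ℂ) → ℂ} (hf : IsHP 2 6 f)
    (h : ∀ k : Fin 7, f ![1, ((k : ℕ) : ℂ)] = 0) (η : Fin 2 → ℂ) : f η = 0 := by
  obtain ⟨P, hP, hPe⟩ := hf
  obtain ⟨p, hp⟩ : ∃ p : Polynomial ℂ, p = aeval (![1, Polynomial.X] : Fin 2 → Polynomial ℂ) P :=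
    ⟨_, rfl⟩
  have he : ∀ t : ℂ, Polynomial.eval t p = f ![1, t] := by
    intro t
    rw [hp, poly_eval_aeval, ← hPe]
    have : (fun i => Polynomial.eval t ((![1, Polynomial.X] : Fin 2 → Polynomial ℂ) i))
        = ![1, t] := by
      funext i
      fin_cases i <;> simp
    rw [this]
  have hd : p.natDegree < 7 := by
    have h1 : p.natDegree ≤ 6 * 1 := by
      rw [hp]
      refine MvPolynomial.aeval_natDegree_le P hP.totalDegree_le _ fun i => ?_
      fin_cases i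
      · simp
      · simp
    omega
  have hp0 : p = 0 := by
    refine Polynomial.eq_zero_of_natDegree_lt_card_of_eval_eq_zero p
      (f := fun k : Fin 7 => ((k : ℕ) : ℂ)) ?_ ?_ (by simpa using hd)
    · intro i j hij
      have hij' : ((i : ℕ) : ℂ) = ((j : ℕ) : ℂ) := hij
      exact Fin.ext (by exact_mod_cast hij')
    · intro i
      rw [he]
      exact h i
  have h1 : ∀ t : ℂ, f ![1, t] = 0 := fun t => by rw [← he, hp0, Polynomial.eval_zero]
  have hsm : ∀ (c : ℂ) (v : Fin 2 → ℂ), f (c • v) = c ^ 6 * f v :=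
    fun c v => IsHP.map_smul ⟨P, hP, hPe⟩ c v
  have hX : X 0 * P = 0 := by
    refine MvPolynomial.funext fun v => ?_
    rw [map_mul, eval_X, map_zero, hPe]
    by_cases h0 : v 0 = 0
    · rw [h0, zero_mul]
    · have e : v = v 0 • ![1, v 1 / v 0] := by
        funext i
        fin_cases i
        · simp
        · simp only [Fin.mk_one, Pi.smul_apply, cons_val_one, smul_eq_mul]
          rw [cons_val_fin_one]
          field_simp
      rw [e, hsm, h1, mul_zero, mul_zero]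
  have hP0 : P = 0 := (mul_eq_zero.mp hX).resolve_left (X_ne_zero 0)
  rw [← hPe, hP0, map_zero]

/-- a nondegenerate binary quadratic form times a square is not a square -/
theorem no_sq (l : Fin 3 → ℂ) (hl : l 1 ^ 2 ≠ l 0 * l 2) (th : Fin 3 → ℂ) (u : Fin 4 → ℂ)
    (h : ∀ t : ℂ, (l 0 + 2 * l 1 * t + l 2 * t ^ 2) * (th 0 + th 1 * t + th 2 * t ^ 2) ^ 2
      + (u 0 + u 1 * t + u 2 * t ^ 2 + u 3 * t ^ 3) ^ 2 = 0) : th = 0 ∧ u = 0 := by
  obtain ⟨r, hr, hr1⟩ : ∃ r, l 0 + 2 * l 1 * r + l 2 * r ^ 2 = 0 ∧ l 2 * r + l 1 ≠ 0 := by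
    by_cases h2 : l 2 = 0
    · have h1 : l 1 ≠ 0 := by
        intro h1
        apply hl
        rw [h1, h2]; ring
      refine ⟨-l 0 / (2 * l 1), ?_, ?_⟩
      · rw [h2]; field_simp; ring
      · rw [h2, zero_mul, zero_add]; exact h1
    · obtain ⟨d, hd⟩ := IsAlgClosed.exists_pow_nat_eq (l 1 ^ 2 - l 0 * l 2) (n := 2)
        (by norm_num)
      refine ⟨(-l 1 + d) / l 2, ?_, ?_⟩
      · have : l 2 * (l 0 + 2 * l 1 * ((-l 1 + d) / l 2) + l 2 * ((-l 1 + d) / l 2) ^ 2) = 0 := by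
          field_simp
          linear_combination hd
        exact (mul_eq_zero.mp this).resolve_left h2
      · have : l 2 * ((-l 1 + d) / l 2) + l 1 = d := by field_simp; ring
        rw [this]
        rintro rfl
        apply hl
        linear_combination -hd
  obtain ⟨A, hA⟩ : ∃ A : Polynomial ℂ, A = Polynomial.C (l 2) * Polynomial.X
    + Polynomial.C (l 2 * r + 2 * l 1) := ⟨_, rfl⟩
  obtain ⟨T, hT⟩ : ∃ T : Polynomial ℂ, T = Polynomial.C (th 0) + Polynomial.C (th 1)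
    * Polynomial.X + Polynomial.C (th 2) * Polynomial.X ^ 2 := ⟨_, rfl⟩
  obtain ⟨U, hU⟩ : ∃ U : Polynomial ℂ, U = Polynomial.C (u 0) + Polynomial.C (u 1)
    * Polynomial.X + Polynomial.C (u 2) * Polynomial.X ^ 2
    + Polynomial.C (u 3) * Polynomial.X ^ 3 := ⟨_, rfl⟩
  have hTe : ∀ t, Polynomial.eval t T = th 0 + th 1 * t + th 2 * t ^ 2 := by
    intro t; rw [hT]; simp
  have hUe : ∀ t, Polynomial.eval t U = u 0 + u 1 * t + u 2 * t ^ 2 + u 3 * t ^ 3 := by
    intro t; rw [hU]; simp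
  have hAe : ∀ t, Polynomial.eval t A = l 2 * t + (l 2 * r + 2 * l 1) := by
    intro t; rw [hA]; simp
  have key : (Polynomial.X - Polynomial.C r) * A * (T * T) = -(U * U) := by
    refine Polynomial.funext fun t => ?_
    simp only [Polynomial.eval_mul, Polynomial.eval_sub, Polynomial.eval_X, Polynomial.eval_C,
      Polynomial.eval_neg, hTe, hUe, hAe]
    linear_combination h t - (th 0 + th 1 * t + th 2 * t ^ 2) ^ 2 * hr
  have hAr : Polynomial.eval r A ≠ 0 := by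
    rw [hAe]
    intro h0
    apply hr1
    linear_combination (1 / 2) * h0
  have hA0 : A ≠ 0 := by
    rintro rfl
    exact hAr (Polynomial.eval_zero)
  have hT0 : T = 0 := by
    by_contra hT0
    have hXr : (Polynomial.X - Polynomial.C r) ≠ 0 := Polynomial.X_sub_C_ne_zero r
    have hL : (Polynomial.X - Polynomial.C r) * A * (T * T) ≠ 0 :=
      mul_ne_zero (mul_ne_zero hXr hA0) (mul_ne_zero hT0 hT0)
    have hU0 : U ≠ 0 := by
      rintro rfl
      apply hL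
      rw [key]; simp
    have h1 := congrArg (Polynomial.rootMultiplicity r) key
    rw [Polynomial.rootMultiplicity_mul hL, Polynomial.rootMultiplicity_mul
      (mul_ne_zero hXr hA0), Polynomial.rootMultiplicity_mul (mul_ne_zero hT0 hT0),
      Polynomial.rootMultiplicity_X_sub_C_self, Polynomial.rootMultiplicity_eq_zero hAr] at h1
    have h2 : Polynomial.rootMultiplicity r (-(U * U)) = Polynomial.rootMultiplicity r U
        + Polynomial.rootMultiplicity r U := by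
      have h3 : -(U * U) = (-U) * U := by ring
      have h4 : (-U) * U ≠ 0 := mul_ne_zero (neg_ne_zero.mpr hU0) hU0
      rw [h3, Polynomial.rootMultiplicity_mul h4]
      congr 1
      have h5 : -U = Polynomial.C (-1) * U := by simp
      have h6 : Polynomial.C (-1 : ℂ) * U ≠ 0 := by rw [← h5]; exact neg_ne_zero.mpr hU0
      rw [h5, Polynomial.rootMultiplicity_mul h6, Polynomial.rootMultiplicity_C, zero_add]
    rw [h2] at h1
    omega
  have hU0 : U = 0 := by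
    rw [hT0, mul_zero, mul_zero] at key
    have : U * U = 0 := by rw [← neg_eq_zero]; exact key.symm
    exact mul_self_eq_zero.mp this
  constructor
  · have e : ∀ t : ℂ, th 0 + th 1 * t + th 2 * t ^ 2 = 0 := fun t => by
      rw [← hTe, hT0, Polynomial.eval_zero]
    have e0 := e 0
    have e1 := e 1
    have e2 := e (-1)
    funext i
    fin_cases i
    · simp only [Fin.zero_eta, Pi.zero_apply]; linear_combination e0
    · simp only [Fin.mk_one, Pi.zero_apply]; linear_combination (1 / 2) * e1 - (1 / 2) * e2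
    · simp only [Fin.reduceFinMk, Pi.zero_apply]
      linear_combination (1 / 2) * e1 + (1 / 2) * e2 - e0
  · have e : ∀ t : ℂ, u 0 + u 1 * t + u 2 * t ^ 2 + u 3 * t ^ 3 = 0 := fun t => by
      rw [← hUe, hU0, Polynomial.eval_zero]
    have e0 := e 0
    have e1 := e 1
    have e2 := e (-1)
    have e3 := e 2
    funext i
    fin_cases i
    · simp only [Fin.zero_eta, Pi.zero_apply]; linear_combination e0
    · simp only [Fin.mk_one, Pi.zero_apply]
      linear_combination (-1 / 2) * e0 + e1 - (1 / 3) * e2 - (1 / 6) * e3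
    · simp only [Fin.reduceFinMk, Pi.zero_apply]
      linear_combination (1 / 2) * e1 + (1 / 2) * e2 - e0
    · simp only [Fin.reduceFinMk, Pi.zero_apply]
      linear_combination (1 / 2) * e0 - (1 / 2) * e1 - (1 / 6) * e2 + (1 / 6) * e3

/-- the square root of `-(a θ^2 + b θ + c)` -/
theorem exists_theta (l : Fin 3 → ℂ) (hl : l 1 ^ 2 ≠ l 0 * l 2) {b c : (Fin 2 → ℂ) → ℂ}
    (hb : IsHP 2 4 b) (hc : IsHP 2 6 c) :
    ∃ (th : Fin 3 → ℂ) (u : Fin 4 → ℂ), ∀ e : Fin 2 → ℂ,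
      (l 0 * e 0 ^ 2 + 2 * l 1 * e 0 * e 1 + l 2 * e 1 ^ 2)
        * (th 0 * e 0 ^ 2 + th 1 * e 0 * e 1 + th 2 * e 1 ^ 2) ^ 2
      + b e * (th 0 * e 0 ^ 2 + th 1 * e 0 * e 1 + th 2 * e 1 ^ 2) + c e
      + (u 0 * e 0 ^ 3 + u 1 * e 0 ^ 2 * e 1 + u 2 * e 0 * e 1 ^ 2 + u 3 * e 1 ^ 3) ^ 2 = 0 := by
  let P : Fin 7 → MvPolynomial (Fin 8) ℂ := fun k =>
    C (l 0 + 2 * l 1 * ((k : ℕ) : ℂ) + l 2 * ((k : ℕ) : ℂ) ^ 2)
      * (X 0 + C ((k : ℕ) : ℂ) * X 1 + C (((k : ℕ) : ℂ) ^ 2) * X 2) ^ 2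
    + C (b ![1, ((k : ℕ) : ℂ)]) * (X 7 * (X 0 + C ((k : ℕ) : ℂ) * X 1
      + C (((k : ℕ) : ℂ) ^ 2) * X 2))
    + C (c ![1, ((k : ℕ) : ℂ)]) * X 7 ^ 2
    + (X 3 + C ((k : ℕ) : ℂ) * X 4 + C (((k : ℕ) : ℂ) ^ 2) * X 5
      + C (((k : ℕ) : ℂ) ^ 3) * X 6) ^ 2
  have hPe : ∀ (k : Fin 7) (x : Fin 8 → ℂ), eval x (P k) =
      (l 0 + 2 * l 1 * ((k : ℕ) : ℂ) + l 2 * ((k : ℕ) : ℂ) ^ 2)
      * (x 0 + ((k : ℕ) : ℂ) * x 1 + ((k : ℕ) : ℂ) ^ 2 * x 2) ^ 2
    + b ![1, ((k : ℕ) : ℂ)] * (x 7 * (x 0 + ((k : ℕ) : ℂ) * x 1 + ((k : ℕ) : ℂ) ^ 2 * x 2))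
    + c ![1, ((k : ℕ) : ℂ)] * x 7 ^ 2
    + (x 3 + ((k : ℕ) : ℂ) * x 4 + ((k : ℕ) : ℂ) ^ 2 * x 5 + ((k : ℕ) : ℂ) ^ 3 * x 6) ^ 2 := by
    intro k x
    simp only [P, map_add, map_mul, map_pow, eval_C, eval_X]
  obtain ⟨x, hx, hxe⟩ := Vale.Agent.P287.H46.exists_common_zero (n := 8) (k := 7) (by norm_num) P
    (fun k => by rw [hPe]; simp)
  have c0 : IsHP 2 1 (fun e : Fin 2 → ℂ => e 0) := IsHP.coord 0
  have c1 : IsHP 2 1 (fun e : Fin 2 → ℂ => e 1) := IsHP.coord 1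
  have ha : IsHP 2 2 (fun e : Fin 2 → ℂ => l 0 * e 0 ^ 2 + 2 * l 1 * e 0 * e 1
      + l 2 * e 1 ^ 2) :=
    (((c0.mul c0).cmul (l 0)).add ((c0.mul c1).cmul (2 * l 1))).add ((c1.mul c1).cmul (l 2))
      |>.congr fun v => by ring
  have hth : IsHP 2 2 (fun e : Fin 2 → ℂ => x 0 * e 0 ^ 2 + x 1 * e 0 * e 1
      + x 2 * e 1 ^ 2) :=
    (((c0.mul c0).cmul (x 0)).add ((c0.mul c1).cmul (x 1))).add ((c1.mul c1).cmul (x 2))
      |>.congr fun v => by ring
  have hu : IsHP 2 3 (fun e : Fin 2 → ℂ => x 3 * e 0 ^ 3 + x 4 * e 0 ^ 2 * e 1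
      + x 5 * e 0 * e 1 ^ 2 + x 6 * e 1 ^ 3) :=
    (((((c0.mul c0).mul c0).cmul (x 3)).add (((c0.mul c0).mul c1).cmul (x 4))).add
      (((c0.mul c1).mul c1).cmul (x 5))).add (((c1.mul c1).mul c1).cmul (x 6))
      |>.congr fun v => by ring
  have hf : IsHP 2 6 (fun e : Fin 2 → ℂ =>
      (l 0 * e 0 ^ 2 + 2 * l 1 * e 0 * e 1 + l 2 * e 1 ^ 2)
        * (x 0 * e 0 ^ 2 + x 1 * e 0 * e 1 + x 2 * e 1 ^ 2) ^ 2
      + x 7 * (b e * (x 0 * e 0 ^ 2 + x 1 * e 0 * e 1 + x 2 * e 1 ^ 2)) + x 7 ^ 2 * c e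
      + (x 3 * e 0 ^ 3 + x 4 * e 0 ^ 2 * e 1 + x 5 * e 0 * e 1 ^ 2 + x 6 * e 1 ^ 3) ^ 2) :=
    (((ha.mul (hth.mul hth)).add ((hb.mul hth).cmul (x 7))).add (hc.cmul (x 7 ^ 2))).add
      (hu.mul hu) |>.congr fun v => by ring
  have hz := zero_of_seven hf (fun k => by
    have h1 := hxe k
    rw [hPe] at h1
    simp only [cons_val_zero, cons_val_one, cons_val_fin_one]
    linear_combination h1)
  have h7 : x 7 ≠ 0 := by
    intro h7
    apply hx
    have h1 := no_sq l hl ![x 0, x 1, x 2] ![x 3, x 4, x 5, x 6] (fun t => by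
      have h1 := hz ![1, t]
      simp only [cons_val_zero, cons_val_one, cons_val_fin_one, h7] at h1
      simp only [cons_val_zero, cons_val_one, cons_val]
      linear_combination h1)
    have a0 := congrFun h1.1 0
    have a1 := congrFun h1.1 1
    have a2 := congrFun h1.1 2
    have a3 := congrFun h1.2 0
    have a4 := congrFun h1.2 1
    have a5 := congrFun h1.2 2
    have a6 := congrFun h1.2 3
    funext i
    fin_cases i
    · exact a0
    · exact a1
    · exact a2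
    · exact a3
    · exact a4
    · exact a5
    · exact a6
    · exact h7
  refine ⟨![x 0 / x 7, x 1 / x 7, x 2 / x 7], ![x 3 / x 7, x 4 / x 7, x 5 / x 7, x 6 / x 7],
    fun e => ?_⟩
  have h1 := hz e
  simp only [cons_val_zero, cons_val_one, cons_val]
  field_simp
  linear_combination h1

end Vale.Agent.P287.H673
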