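import Vale.Agent.P287.H673.Line3

/-!
P287, helper673: automorphisms of a smooth cubic form have finite order.
-/

namespace Vale.Agent.P287.H673.FinOrd

open Finset

variable {n : ℕ}

abbrev Vn (n : ℕ) := Fin n → ℂ

theorem expandn (T : Vn n →ₗ[ℂ] Vn n →ₗ[ℂ] Vn n →ₗ[ℂ] ℂ) (x y z : Vn n) :
    T x y z = ∑ i, ∑ j, ∑ k, (x i * y j * z k) *
      T (Pi.single i 1) (Pi.single j 1) (Pi.single k 1) := by
  have hb : ∀ v : Vn n, v = ∑ i, v i • (Pi.single i 1 : Vn n) := by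
    intro v
    conv_lhs => rw [← Finset.univ_sum_single v]
    refine Finset.sum_congr rfl fun i _ => ?_
    rw [← Pi.single_smul, smul_eq_mul, mul_one]
  have h1 : T x y z = ∑ i, x i * T (Pi.single i 1) y z := by
    conv_lhs => rw [hb x]
    simp only [map_sum, LinearMap.sum_apply, map_smul, LinearMap.smul_apply, smul_eq_mul]
  have h2 : ∀ i, T (Pi.single i 1) y z = ∑ j, y j * T (Pi.single i 1) (Pi.single j 1) z := by
    intro i
    conv_lhs => rw [hb y]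
    simp only [map_sum, LinearMap.sum_apply, map_smul, LinearMap.smul_apply, smul_eq_mul]
  have h3 : ∀ i j, T (Pi.single i 1) (Pi.single j 1) z =
      ∑ k, z k * T (Pi.single i 1) (Pi.single j 1) (Pi.single k 1) := by
    intro i j
    conv_lhs => rw [hb z]
    simp only [map_sum, map_smul, smul_eq_mul]
  rw [h1]
  simp only [h2, h3, Finset.mul_sum]
  refine Finset.sum_congr rfl fun i _ => Finset.sum_congr rfl fun j _ =>
    Finset.sum_congr rfl fun k _ => ?_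
  ring

/-- upper bound -/
theorem upper (T : Vn n →ₗ[ℂ] Vn n →ₗ[ℂ] Vn n →ₗ[ℂ] ℂ) :
    ∃ C : ℝ, 0 ≤ C ∧ ∀ x y z, ‖T x y z‖ ≤ C * ‖x‖ * ‖y‖ * ‖z‖ := by
  refine ⟨∑ i, ∑ j, ∑ k, ‖T (Pi.single i 1) (Pi.single j 1) (Pi.single k 1)‖, ?_, ?_⟩
  · exact Finset.sum_nonneg fun i _ => Finset.sum_nonneg fun j _ =>
      Finset.sum_nonneg fun k _ => norm_nonneg _
  · intro x y z
    rw [expandn T x y z]
    simp only [Finset.sum_mul]
    refine (norm_sum_le _ _).trans (Finset.sum_le_sum fun i _ => ?_)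
    refine (norm_sum_le _ _).trans (Finset.sum_le_sum fun j _ => ?_)
    refine (norm_sum_le _ _).trans (Finset.sum_le_sum fun k _ => ?_)
    rw [norm_mul, norm_mul, norm_mul]
    have h1 := norm_le_pi_norm x i
    have h2 := norm_le_pi_norm y j
    have h3 := norm_le_pi_norm z k
    have h4 : ‖x i‖ * ‖y j‖ * ‖z k‖ ≤ ‖x‖ * ‖y‖ * ‖z‖ := by gcongr
    calc _ ≤ (‖x‖ * ‖y‖ * ‖z‖) * ‖T (Pi.single i 1) (Pi.single j 1) (Pi.single k 1)‖ := by
          gcongr
      _ = _ := by ring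

noncomputable def NN (T : Vn n →ₗ[ℂ] Vn n →ₗ[ℂ] Vn n →ₗ[ℂ] ℂ) (v : Vn n) : ℝ :=
  ∑ i, ‖T v v (Pi.single i 1)‖

theorem continuous_NN (T : Vn n →ₗ[ℂ] Vn n →ₗ[ℂ] Vn n →ₗ[ℂ] ℂ) : Continuous (NN T) := by
  unfold NN
  refine continuous_finsetSum _ fun i _ => ?_
  refine Continuous.norm ?_
  have e : (fun v => T v v (Pi.single i 1)) = fun v : Vn n => ∑ a, ∑ b, ∑ c,
      (v a * v b * (Pi.single i 1 : Vn n) c) *
      T (Pi.single a 1) (Pi.single b 1) (Pi.single c 1) := funext fun v => expandn T _ _ _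
  rw [e]
  fun_prop

/-- lower bound -/
theorem lower {T : Vn n →ₗ[ℂ] Vn n →ₗ[ℂ] Vn n →ₗ[ℂ] ℂ} (hs : ∀ v, v ≠ 0 → ∃ w, T v v w ≠ 0) :
    ∃ c : ℝ, 0 < c ∧ ∀ v, c * ‖v‖ ^ 2 ≤ NN T v := by
  have hnn : ∀ v, 0 ≤ NN T v := fun v => Finset.sum_nonneg fun i _ => norm_nonneg _
  have hpos : ∀ v, v ≠ 0 → 0 < NN T v := by
    intro v hv
    obtain ⟨w, hw⟩ := hs v hv
    refine lt_of_le_of_ne (hnn v) fun h => hw ?_
    have h1 := (Finset.sum_eq_zero_iff_of_nonneg (fun i _ => norm_nonneg _)).mp h.symm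
    have hb : w = ∑ i, w i • (Pi.single i 1 : Vn n) := by
      conv_lhs => rw [← Finset.univ_sum_single w]
      refine Finset.sum_congr rfl fun i _ => ?_
      rw [← Pi.single_smul, smul_eq_mul, mul_one]
    rw [hb, map_sum]
    refine Finset.sum_eq_zero fun i hi => ?_
    rw [map_smul, norm_eq_zero.mp (h1 i hi), smul_zero]
  have hhom : ∀ (r : ℝ) (v : Vn n), NN T ((r : ℂ) • v) = r ^ 2 * NN T v := by
    intro r v
    unfold NN
    rw [Finset.mul_sum]
    refine Finset.sum_congr rfl fun i _ => ?_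
    simp only [map_smul, LinearMap.smul_apply, smul_eq_mul, norm_mul, Complex.norm_real,
      Real.norm_eq_abs]
    rw [← mul_assoc, ← pow_two, sq_abs]
  by_cases hne : (Metric.sphere (0 : Vn n) 1).Nonempty
  · obtain ⟨v₀, hv₀, hmin⟩ := (isCompact_sphere (0 : Vn n) 1).exists_isMinOn hne
      (continuous_NN T).continuousOn
    have hv0 : v₀ ≠ 0 := by
      rintro rfl
      simp at hv₀
    refine ⟨NN T v₀, hpos v₀ hv0, fun v => ?_⟩
    by_cases hv : v = 0
    · subst hv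
      rw [norm_zero]
      simpa using hnn 0
    · have hnv : ‖v‖ ≠ 0 := norm_ne_zero_iff.mpr hv
      have h1 : (((‖v‖⁻¹ : ℝ) : ℂ) • v) ∈ Metric.sphere (0 : Vn n) 1 := by
        rw [mem_sphere_zero_iff_norm, norm_smul, Complex.norm_real, norm_inv, norm_norm,
          inv_mul_cancel₀ hnv]
      have h2 : NN T v₀ ≤ NN T (((‖v‖⁻¹ : ℝ) : ℂ) • v) := hmin h1
      rw [hhom] at h2
      calc NN T v₀ * ‖v‖ ^ 2 ≤ ((‖v‖⁻¹) ^ 2 * NN T v) * ‖v‖ ^ 2 := by gcongr
        _ = NN T v := by field_simp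
  · refine ⟨1, one_pos, fun v => ?_⟩
    have hv : v = 0 := by
      by_contra hv
      apply hne
      refine ⟨(((‖v‖⁻¹ : ℝ) : ℂ) • v), ?_⟩
      rw [mem_sphere_zero_iff_norm, norm_smul, Complex.norm_real, norm_inv, norm_norm,
        inv_mul_cancel₀ (norm_ne_zero_iff.mpr hv)]
    subst hv
    rw [norm_zero]
    simpa using hnn 0

theorem bound {T : Vn n →ₗ[ℂ] Vn n →ₗ[ℂ] Vn n →ₗ[ℂ] ℂ} (hs : ∀ v, v ≠ 0 → ∃ w, T v v w ≠ 0) :
    ∃ K : ℝ, 0 ≤ K ∧ ∀ h h' : Vn n →L[ℂ] Vn n, (∀ x y z, T (h x) (h y) (h z) = T x y z) →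
      (∀ x, h (h' x) = x) → ‖h‖ ^ 2 ≤ K * ‖h'‖ := by
  obtain ⟨C, hC0, hC⟩ := upper T
  obtain ⟨c, hc0, hc⟩ := lower hs
  refine ⟨n * C / c, by positivity, fun h h' hT hh => ?_⟩
  have key : ∀ v, ‖h v‖ ≤ Real.sqrt (n * C / c * ‖h'‖) * ‖v‖ := by
    intro v
    have h1 : NN T (h v) ≤ n * (C * ‖v‖ * ‖v‖ * ‖h'‖) := by
      unfold NN
      have h2 : ∀ i ∈ (Finset.univ : Finset (Fin n)), ‖T (h v) (h v) (Pi.single i 1)‖ ≤
          C * ‖v‖ * ‖v‖ * ‖h'‖ := by
        intro i _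
        have e : T (h v) (h v) (Pi.single i 1) = T v v (h' (Pi.single i 1)) := by
          rw [← hT v v (h' (Pi.single i 1)), hh]
        rw [e]
        refine (hC _ _ _).trans ?_
        have h3 : ‖h' (Pi.single i 1)‖ ≤ ‖h'‖ := by
          refine (h'.le_opNorm _).trans ?_
          have : ‖(Pi.single i 1 : Vn n)‖ = 1 := by
            rw [Pi.norm_single, norm_one]
          rw [this, mul_one]
        gcongr
      refine (Finset.sum_le_sum h2).trans ?_
      rw [Finset.sum_const, Finset.card_univ, Fintype.card_fin, nsmul_eq_mul]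
    have h4 := (hc (h v)).trans h1
    have h5 : ‖h v‖ ^ 2 ≤ (n * C / c * ‖h'‖) * ‖v‖ ^ 2 := by
      rw [div_mul_eq_mul_div, div_mul_eq_mul_div, le_div_iff₀ hc0]
      calc ‖h v‖ ^ 2 * c = c * ‖h v‖ ^ 2 := by ring
        _ ≤ _ := h4
        _ = _ := by ring
    have h6 : ‖h v‖ ≤ Real.sqrt ((n * C / c * ‖h'‖) * ‖v‖ ^ 2) :=
      Real.le_sqrt_of_sq_le h5
    rwa [Real.sqrt_mul (by positivity), Real.sqrt_sq (norm_nonneg v)] at h6
  have h7 : ‖h‖ ≤ Real.sqrt (n * C / c * ‖h'‖) :=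
    h.opNorm_le_bound (Real.sqrt_nonneg _) key
  calc ‖h‖ ^ 2 ≤ (Real.sqrt (n * C / c * ‖h'‖)) ^ 2 := by gcongr
    _ = _ := Real.sq_sqrt (by positivity)

theorem bound' {T : Vn n →ₗ[ℂ] Vn n →ₗ[ℂ] Vn n →ₗ[ℂ] ℂ} (hs : ∀ v, v ≠ 0 → ∃ w, T v v w ≠ 0) :
    ∃ K : ℝ, 0 ≤ K ∧ ∀ h h' : Vn n →L[ℂ] Vn n, (∀ x y z, T (h x) (h y) (h z) = T x y z) →
      (∀ x, h (h' x) = x) → (∀ x, h' (h x) = x) → ‖h‖ ≤ K := by
  obtain ⟨K, hK0, hK⟩ := bound hs
  refine ⟨K, hK0, fun h h' hT hh hh' => ?_⟩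
  have hT' : ∀ x y z, T (h' x) (h' y) (h' z) = T x y z := by
    intro x y z
    rw [← hT (h' x) (h' y) (h' z), hh, hh, hh]
  have e1 := hK h h' hT hh
  have e2 := hK h' h hT' hh'
  have h1 : ‖h‖ ^ 4 ≤ K ^ 3 * ‖h‖ := by
    calc ‖h‖ ^ 4 = (‖h‖ ^ 2) ^ 2 := by ring
      _ ≤ (K * ‖h'‖) ^ 2 := by gcongr
      _ = K ^ 2 * ‖h'‖ ^ 2 := by ring
      _ ≤ K ^ 2 * (K * ‖h‖) := by gcongr
      _ = _ := by ring
  by_cases h0 : ‖h‖ = 0
  · rw [h0]; exact hK0
  · have hp : 0 < ‖h‖ := lt_of_le_of_ne (norm_nonneg _) (Ne.symm h0)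
    have h2 : ‖h‖ ^ 3 ≤ K ^ 3 := by
      have : ‖h‖ ^ 3 * ‖h‖ ≤ K ^ 3 * ‖h‖ := by
        calc ‖h‖ ^ 3 * ‖h‖ = ‖h‖ ^ 4 := by ring
          _ ≤ _ := h1
      exact le_of_mul_le_mul_right this hp
    exact (pow_le_pow_iff_left₀ (norm_nonneg _) hK0 (by norm_num)).mp h2

/-- powers of an automorphism are bounded -/
theorem powers_bounded {T : Vn n →ₗ[ℂ] Vn n →ₗ[ℂ] Vn n →ₗ[ℂ] ℂ}
    (hs : ∀ v, v ≠ 0 → ∃ w, T v v w ≠ 0) {g : Module.End ℂ (Vn n)}
    (hg : ∀ x y z, T (g x) (g y) (g z) = T x y z) :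
    Function.Injective g ∧ ∃ K : ℝ, ∀ (j : ℕ) (v : Vn n), ‖(g ^ j) v‖ ≤ K * ‖v‖ := by
  have hinj : Function.Injective g := by
    rw [injective_iff_map_eq_zero]
    intro v hv
    by_contra hv0
    obtain ⟨w, hw⟩ := hs v hv0
    apply hw
    rw [← hg v v w, hv]
    simp
  refine ⟨hinj, ?_⟩
  obtain ⟨K, hK0, hK⟩ := bound' hs
  refine ⟨K, fun j v => ?_⟩
  let e : Vn n ≃ₗ[ℂ] Vn n := LinearEquiv.ofInjectiveEndo g hinj
  have he : ∀ v, e v = g v := fun v => rfl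
  have hpow : ∀ (j : ℕ) (x y z : Vn n), T ((g ^ j) x) ((g ^ j) y) ((g ^ j) z) = T x y z := by
    intro j
    induction j with
    | zero => intro x y z; simp
    | succ j ih =>
      intro x y z
      rw [pow_succ', Module.End.mul_apply, Module.End.mul_apply, Module.End.mul_apply, hg, ih]
  let h : Vn n →L[ℂ] Vn n := LinearMap.toContinuousLinearMap (g ^ j)
  let g' : Module.End ℂ (Vn n) := (e.symm : Vn n →ₗ[ℂ] Vn n)
  let h' : Vn n →L[ℂ] Vn n := LinearMap.toContinuousLinearMap (g' ^ j)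
  have hgg : g * g' = 1 := by
    refine LinearMap.ext fun x => ?_
    change g (e.symm x) = x
    rw [← he, LinearEquiv.apply_symm_apply]
  have hgg' : g' * g = 1 := by
    refine LinearMap.ext fun x => ?_
    change e.symm (g x) = x
    rw [← he, LinearEquiv.symm_apply_apply]
  have hc1 : (g ^ j) * (g' ^ j) = 1 := by
    have hcomm : Commute g g' := by rw [Commute, SemiconjBy, hgg, hgg']
    rw [← hcomm.mul_pow, hgg, one_pow]
  have hc2 : (g' ^ j) * (g ^ j) = 1 := by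
    have hcomm : Commute g' g := by rw [Commute, SemiconjBy, hgg, hgg']
    rw [← hcomm.mul_pow, hgg', one_pow]
  have h1 : ‖h‖ ≤ K := by
    refine hK h h' (fun x y z => hpow j x y z) (fun x => ?_) (fun x => ?_)
    · exact congrArg (fun f : Module.End ℂ (Vn n) => f x) hc1
    · exact congrArg (fun f : Module.End ℂ (Vn n) => f x) hc2
  calc ‖(g ^ j) v‖ = ‖h v‖ := rfl
    _ ≤ ‖h‖ * ‖v‖ := h.le_opNorm v
    _ ≤ K * ‖v‖ := by gcongr

section general

variable {V : Type*} [AddCommGroup V] [Module ℂ V] [FiniteDimensional ℂ V]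

/-- the eigenvalues are stable under `λ ↦ λ⁻²` -/
theorem eig_step {T : V →ₗ[ℂ] V →ₗ[ℂ] V →ₗ[ℂ] ℂ}
    (hs : ∀ v, v ≠ 0 → ∃ w, T v v w ≠ 0) {g : Module.End ℂ V}
    (hg : ∀ x y z, T (g x) (g y) (g z) = T x y z) {lam : ℂ}
    (hl : Module.End.HasEigenvalue g lam) : lam ≠ 0 ∧ Module.End.HasEigenvalue g (lam ^ (-2 : ℤ)) := by
  obtain ⟨e, he⟩ := hl.exists_hasEigenvector
  have he1 : g e = lam • e := he.apply_eq_smul
  have he0 : e ≠ 0 := he.2
  obtain ⟨w, hw⟩ := hs e he0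
  have hl0 : lam ≠ 0 := by
    rintro rfl
    apply hw
    rw [← hg e e w, he1]
    simp
  refine ⟨hl0, ?_⟩
  have hf : ∀ x, T e e (g x) = lam ^ (-2 : ℤ) * T e e x := by
    intro x
    have h1 := hg e e x
    rw [he1] at h1
    simp only [map_smul, LinearMap.smul_apply, smul_eq_mul] at h1
    rw [← h1, zpow_neg]
    have : (lam ^ (2 : ℤ)) = lam * lam := by
      rw [zpow_ofNat, pow_two]
    rw [this]
    field_simp
  by_contra hcon
  have hker : LinearMap.ker (g - algebraMap ℂ (Module.End ℂ V) (lam ^ (-2 : ℤ))) = ⊥ := by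
    rw [Module.End.hasEigenvalue_iff, not_not] at hcon
    rw [← hcon, Module.End.eigenspace_def, Algebra.algebraMap_eq_smul_one]
  have hsurj : Function.Surjective (g - algebraMap ℂ (Module.End ℂ V) (lam ^ (-2 : ℤ))) :=
    LinearMap.injective_iff_surjective.mp (LinearMap.ker_eq_bot.mp hker)
  obtain ⟨x, hx⟩ := hsurj w
  apply hw
  rw [← hx]
  rw [LinearMap.sub_apply, map_sub, hf, Module.algebraMap_end_apply, map_smul, smul_eq_mul, sub_self]

/-- every eigenvalue is a root of unity -/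
theorem eig_root {T : V →ₗ[ℂ] V →ₗ[ℂ] V →ₗ[ℂ] ℂ}
    (hs : ∀ v, v ≠ 0 → ∃ w, T v v w ≠ 0) {g : Module.End ℂ V}
    (hg : ∀ x y z, T (g x) (g y) (g z) = T x y z) {lam : ℂ}
    (hl : Module.End.HasEigenvalue g lam) : ∃ m : ℕ, 0 < m ∧ lam ^ m = 1 := by
  have hl0 := (eig_step hs hg hl).1
  have hseq : ∀ k : ℕ, Module.End.HasEigenvalue g (lam ^ ((-2 : ℤ) ^ k)) := by
    intro k
    induction k with
    | zero => simpa using hl
    | succ k ih =>
      have h := (eig_step hs hg ih).2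
      rw [← zpow_mul] at h
      rwa [pow_succ]
  have hfin := Module.End.finite_hasEigenvalue g
  have hS : Finite {μ : ℂ | Module.End.HasEigenvalue g μ} := hfin
  obtain ⟨a, b, hab, h⟩ := Finite.exists_ne_map_eq_of_infinite
    (fun k : ℕ => (⟨lam ^ ((-2 : ℤ) ^ k), hseq k⟩ : {μ : ℂ | Module.End.HasEigenvalue g μ}))
  have h1 : lam ^ ((-2 : ℤ) ^ a) = lam ^ ((-2 : ℤ) ^ b) := congrArg Subtype.val h
  have h2 : lam ^ ((-2 : ℤ) ^ a - (-2 : ℤ) ^ b) = 1 := by
    rw [zpow_sub₀ hl0, h1, div_self (zpow_ne_zero _ hl0)]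
  have h3 : (-2 : ℤ) ^ a - (-2 : ℤ) ^ b ≠ 0 := by
    intro h0
    have h4 : (-2 : ℤ) ^ a = (-2 : ℤ) ^ b := sub_eq_zero.mp h0
    have h5 := congrArg Int.natAbs h4
    rw [Int.natAbs_pow, Int.natAbs_pow] at h5
    exact hab (Nat.pow_right_injective (le_refl 2) h5)
  refine ⟨((-2 : ℤ) ^ a - (-2 : ℤ) ^ b).natAbs, Int.natAbs_pos.mpr h3, ?_⟩
  rcases Int.natAbs_eq ((-2 : ℤ) ^ a - (-2 : ℤ) ^ b) with h6 | h6
  · rw [h6] at h2
    rwa [zpow_natCast] at h2
  · rw [h6, zpow_neg, inv_eq_one] at h2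
    rwa [zpow_natCast] at h2

/-- a common exponent -/
theorem eig_exponent {T : V →ₗ[ℂ] V →ₗ[ℂ] V →ₗ[ℂ] ℂ}
    (hs : ∀ v, v ≠ 0 → ∃ w, T v v w ≠ 0) {g : Module.End ℂ V}
    (hg : ∀ x y z, T (g x) (g y) (g z) = T x y z) :
    ∃ N : ℕ, 0 < N ∧ ∀ lam, Module.End.HasEigenvalue g lam → lam ^ N = 1 := by
  have hfin := Module.End.finite_hasEigenvalue g
  have h : ∀ S : Finset ℂ, (∀ lam ∈ S, Module.End.HasEigenvalue g lam) →
      ∃ N : ℕ, 0 < N ∧ ∀ lam ∈ S, lam ^ N = 1 := by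
    intro S
    induction S using Finset.induction_on with
    | empty => intro _; exact ⟨1, one_pos, fun _ h => absurd h (Finset.notMem_empty _)⟩
    | insert a S ha ih =>
      intro hS
      obtain ⟨N, hN, h1⟩ := ih fun l hl => hS l (Finset.mem_insert_of_mem hl)
      obtain ⟨m, hm, h2⟩ := eig_root hs hg (hS a (Finset.mem_insert_self _ _))
      refine ⟨N * m, Nat.mul_pos hN hm, fun l hl => ?_⟩
      rcases Finset.mem_insert.mp hl with h3 | h3
      · rw [h3, mul_comm, pow_mul, h2, one_pow]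
      · rw [pow_mul, h1 l h3, one_pow]
  obtain ⟨N, hN, h1⟩ := h hfin.toFinset fun l hl => by simpa using hl
  exact ⟨N, hN, fun l hl => h1 l (by simpa using hl)⟩

/-- semisimplicity from bounded powers -/
theorem jordan {g : Module.End ℂ (Vn n)} {K : ℝ} (hK : ∀ (j : ℕ) (v : Vn n), ‖(g ^ j) v‖ ≤ K * ‖v‖)
    {lam : ℂ} (hl : ‖lam‖ = 1) {x : Vn n}
    (hy : g (g x - lam • x) = lam • (g x - lam • x)) : g x = lam • x := by
  set y := g x - lam • x with hy'
  have hgx : g x = lam • x + y := by rw [hy']; abel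
  have hj : ∀ j : ℕ, (g ^ (j + 1)) x = lam ^ (j + 1) • x + ((j + 1 : ℂ) * lam ^ j) • y := by
    intro j
    induction j with
    | zero => simp [hgx]
    | succ j ih =>
      rw [pow_succ', Module.End.mul_apply, ih, map_add, map_smul, map_smul, hgx, hy, smul_add,
        smul_smul, smul_smul, add_assoc, ← add_smul]
      congr 2
      push_cast
      ring
  have hy0 : y = 0 := by
    by_contra hne
    have hpos : 0 < ‖y‖ := norm_pos_iff.mpr hne
    obtain ⟨j, hj'⟩ := exists_nat_gt ((K * ‖x‖ + ‖x‖) / ‖y‖)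
    rw [div_lt_iff₀ hpos] at hj'
    have h1 := hK (j + 1) x
    rw [hj] at h1
    have h2 : ‖((j + 1 : ℂ) * lam ^ j) • y‖ = (j + 1) * ‖y‖ := by
      rw [norm_smul, norm_mul, norm_pow, hl, one_pow, mul_one]
      congr 1
      have : ((j : ℂ) + 1) = ((j + 1 : ℕ) : ℂ) := by push_cast; ring
      rw [this, Complex.norm_natCast]
      push_cast; ring
    have h3 : ‖lam ^ (j + 1) • x‖ = ‖x‖ := by
      rw [norm_smul, norm_pow, hl, one_pow, one_mul]
    have h4 := norm_sub_le (lam ^ (j + 1) • x + ((j + 1 : ℂ) * lam ^ j) • y) (lam ^ (j + 1) • x)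
    rw [add_sub_cancel_left, h2, h3] at h4
    nlinarith
  rw [hgx, hy0, add_zero]

theorem finite_order_n {T : Vn n →ₗ[ℂ] Vn n →ₗ[ℂ] Vn n →ₗ[ℂ] ℂ}
    (hs : ∀ v, v ≠ 0 → ∃ w, T v v w ≠ 0) {g : Module.End ℂ (Vn n)}
    (hg : ∀ x y z, T (g x) (g y) (g z) = T x y z) : ∃ N, 0 < N ∧ g ^ N = 1 := by
  obtain ⟨hinj, K, hK⟩ := powers_bounded hs hg
  obtain ⟨N, hN, hN1⟩ := eig_exponent hs hg
  refine ⟨N, hN, ?_⟩
  have hgen : ∀ lam : ℂ, Module.End.HasEigenvalue g lam → ∀ (k : ℕ) (x : Vn n),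
      ((g - algebraMap ℂ (Module.End ℂ (Vn n)) lam) ^ k) x = 0 → g x = lam • x := by
    intro lam hlam k
    have hl : ‖lam‖ = 1 := Complex.norm_eq_one_of_pow_eq_one (hN1 lam hlam) hN.ne'
    induction k with
    | zero =>
      intro x hx
      rw [pow_zero, Module.End.one_apply] at hx
      rw [hx]; simp
    | succ k ih =>
      intro x hx
      rw [pow_succ, Module.End.mul_apply] at hx
      have h1 := ih _ hx
      rw [LinearMap.sub_apply, Module.algebraMap_end_apply] at h1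
      exact jordan hK hl h1
  have htop := Module.End.iSup_maxGenEigenspace_eq_top g
  have hle : (⨆ μ : ℂ, g.maxGenEigenspace μ) ≤ LinearMap.ker (g ^ N - 1) := by
    refine iSup_le fun lam => ?_
    intro x hx
    obtain ⟨k, hk⟩ := (Module.End.mem_maxGenEigenspace g lam x).mp hx
    by_cases hx0 : x = 0
    · rw [hx0]; exact Submodule.zero_mem _
    have hlam : Module.End.HasEigenvalue g lam := by
      by_contra hcon
      rw [Module.End.hasEigenvalue_iff, not_not, Module.End.eigenspace_def] at hcon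
      have hi : Function.Injective ((g - algebraMap ℂ (Module.End ℂ (Vn n)) lam) ^ k) := by
        rw [Module.End.coe_pow]
        exact (LinearMap.ker_eq_bot.mp hcon).iterate k
      apply hx0
      apply hi
      rw [map_zero]
      exact hk
    have hgx : g x = lam • x := hgen lam hlam k x hk
    have hpow : ∀ j : ℕ, (g ^ j) x = lam ^ j • x := by
      intro j
      induction j with
      | zero => simp
      | succ j ih => rw [pow_succ', Module.End.mul_apply, ih, map_smul, hgx, smul_smul, pow_succ]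
    rw [LinearMap.mem_ker, LinearMap.sub_apply, hpow, hN1 lam hlam, one_smul,
      Module.End.one_apply, sub_self]
  rw [htop, top_le_iff, LinearMap.ker_eq_top] at hle
  exact sub_eq_zero.mp hle

/-- an automorphism of a smooth cubic form has finite order -/
theorem finite_order {T : V →ₗ[ℂ] V →ₗ[ℂ] V →ₗ[ℂ] ℂ}
    (hs : ∀ v, v ≠ 0 → ∃ w, T v v w ≠ 0) {g : Module.End ℂ V}
    (hg : ∀ x y z, T (g x) (g y) (g z) = T x y z) : ∃ N, 0 < N ∧ g ^ N = 1 := by
  obtain ⟨e⟩ : Nonempty (V ≃ₗ[ℂ] Vn (Module.finrank ℂ V)) := by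
    apply FiniteDimensional.nonempty_linearEquiv_of_finrank_eq
    rw [Module.finrank_fin_fun]
  set m := Module.finrank ℂ V
  let f : Vn m →ₗ[ℂ] V := e.symm
  have hs' : ∀ v : Vn m, v ≠ 0 → ∃ w, pullTri f T v v w ≠ 0 := by
    intro v hv
    obtain ⟨w, hw⟩ := hs (e.symm v) (fun h => hv (e.symm.map_eq_zero_iff.mp h))
    refine ⟨e w, ?_⟩
    rw [pullTri_apply]
    change T (e.symm v) (e.symm v) (e.symm (e w)) ≠ 0
    rwa [LinearEquiv.symm_apply_apply]
  have hg' : ∀ x y z : Vn m, pullTri f T (e.conj g x) (e.conj g y) (e.conj g z) =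
      pullTri f T x y z := by
    intro x y z
    simp only [pullTri_apply]
    change T (e.symm (e (g (e.symm x)))) (e.symm (e (g (e.symm y)))) (e.symm (e (g (e.symm z)))) =
      T (e.symm x) (e.symm y) (e.symm z)
    simp only [LinearEquiv.symm_apply_apply, hg]
  obtain ⟨N, hN, h⟩ := finite_order_n hs' hg'
  refine ⟨N, hN, ?_⟩
  have h2 : e.conj (g ^ N) = e.conj 1 := by
    have h3 : ∀ j : ℕ, e.conj (g ^ j) = (e.conj g) ^ j := by
      intro j
      induction j with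
      | zero =>
        rw [pow_zero, pow_zero]
        exact LinearEquiv.conj_id e
      | succ j ih =>
        rw [pow_succ, pow_succ, ← ih]
        exact LinearEquiv.conj_comp e _ _
    rw [h3, h]
    exact (LinearEquiv.conj_id e).symm
  exact e.conj.injective h2

end general

end Vale.Agent.P287.H673.FinOrd
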