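import Vale.Agent.P287.H674.Defs

/-!
P287, helper673: a rational hypersurface (mutually inverse rational maps) of `P^5` defined by
a prime form has a purely transcendental function field, in every affine chart.
-/

namespace Vale.Agent.P287.H673

open MvPolynomial Vale.Agent.P287.H674

/-- The coordinate ring of the affine chart `x_i = 1` of `V(F)`. -/
abbrev Chart (F : MvPolynomial (Fin 6) ℂ) (i : Fin 6) : Type :=
  MvPolynomial (Fin 6) ℂ ⧸ Ideal.span {F, X i - 1}

theorem aeval_mul_left {σ K : Type*} [CommRing K] [Algebra ℂ K] {p : MvPolynomial σ ℂ} {d : ℕ}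
    (hp : p.IsHomogeneous d) (r : K) (f : σ → K) :
    aeval (fun k => r * f k) p = r ^ d * aeval f p := by
  rw [aeval_def, aeval_def, eval₂_eq, eval₂_eq, Finset.mul_sum]
  refine Finset.sum_congr rfl fun m hm => ?_
  have h := hp.degree_eq_sum_deg_support hm
  rw [h]
  simp only [mul_pow, Finset.prod_mul_distrib, Finset.prod_pow_eq_pow_sum]
  ring

/-- dehomogenisation -/
noncomputable def dh : MvPolynomial (Fin 5) ℂ →ₐ[ℂ] MvPolynomial (Fin 4) ℂ :=
  aeval (Fin.cons 1 X : Fin 5 → MvPolynomial (Fin 4) ℂ)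

theorem dh_ne_zero {p : MvPolynomial (Fin 5) ℂ} {d : ℕ} (hp : p.IsHomogeneous d) (h0 : p ≠ 0) :
    dh p ≠ 0 := by
  intro h
  apply h0
  have h1 : p * X 0 = 0 := by
    apply MvPolynomial.funext
    intro t
    rw [map_mul, map_zero, eval_X]
    by_cases ht : t 0 = 0
    · rw [ht, mul_zero]
    · have e : t = fun k => t 0 * (Fin.cons 1 (fun j : Fin 4 => t j.succ / t 0) : Fin 5 → ℂ) k := by
        funext k
        refine Fin.cases ?_ (fun j => ?_) k
        · simp
        · simp only [Fin.cons_succ]; field_simp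
      have e2 : eval t p = 0 := by
        rw [e, ← coe_aeval_eq_eval]
        have := aeval_mul_left hp (t 0) (Fin.cons 1 (fun j : Fin 4 => t j.succ / t 0) : Fin 5 → ℂ)
        refine this.trans ?_
        have e3 : aeval (Fin.cons 1 (fun j : Fin 4 => t j.succ / t 0) : Fin 5 → ℂ) p
            = aeval (fun j : Fin 4 => t j.succ / t 0) (dh p) := by
          rw [dh, ← AlgHom.comp_apply, comp_aeval]
          congr 2
          funext k
          refine Fin.cases ?_ (fun j => ?_) k
          · simp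
          · simp
        rw [e3, h, map_zero, mul_zero]
      rw [e2, zero_mul]
  rcases mul_eq_zero.mp h1 with h2 | h2
  · exact h2
  · exact absurd h2 (X_ne_zero 0)

/-- homogenisation with respect to the variable `i`, up to degree `N` -/
theorem exists_homog {i : Fin 6} (p : MvPolynomial (Fin 6) ℂ) :
    ∃ (N : ℕ) (P : MvPolynomial (Fin 6) ℂ), P.IsHomogeneous N ∧
      p - P ∈ Ideal.span {(X i - 1 : MvPolynomial (Fin 6) ℂ)} := by
  refine ⟨p.totalDegree, ∑ n ∈ Finset.range (p.totalDegree + 1),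
    X i ^ (p.totalDegree - n) * homogeneousComponent n p, ?_, ?_⟩
  · refine IsHomogeneous.sum _ _ _ fun n hn => ?_
    have h1 := (isHomogeneous_X_pow (R := ℂ) i (p.totalDegree - n)).mul
      (homogeneousComponent_isHomogeneous n p)
    have h2 : p.totalDegree - n + n = p.totalDegree := by
      have := Finset.mem_range.mp hn
      omega
    rwa [h2] at h1
  · have e : p - ∑ n ∈ Finset.range (p.totalDegree + 1),
        X i ^ (p.totalDegree - n) * homogeneousComponent n p =
        ∑ n ∈ Finset.range (p.totalDegree + 1), (homogeneousComponent n p -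
          X i ^ (p.totalDegree - n) * homogeneousComponent n p) := by
      rw [Finset.sum_sub_distrib, sum_homogeneousComponent]
    rw [e]
    refine Ideal.sum_mem _ fun n _ => ?_
    rw [Ideal.mem_span_singleton]
    have : (X i - 1 : MvPolynomial (Fin 6) ℂ) ∣ X i ^ (p.totalDegree - n) - 1 := by
      have := sub_dvd_pow_sub_pow (X i : MvPolynomial (Fin 6) ℂ) 1 (p.totalDegree - n)
      rwa [one_pow] at this
    obtain ⟨c, hc⟩ := this
    exact ⟨-c * homogeneousComponent n p, by linear_combination (-(homogeneousComponent n p)) * hc⟩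

section main

variable {F : MvPolynomial (Fin 6) ℂ} {d e : ℕ} {φ : Fin 6 → MvPolynomial (Fin 5) ℂ}
  {ψ : Fin 5 → MvPolynomial (Fin 6) ℂ} {h : MvPolynomial (Fin 5) ℂ}
  {g : MvPolynomial (Fin 6) ℂ}

/-- the map to the function field of `P^4` -/
noncomputable def th (φ : Fin 6 → MvPolynomial (Fin 5) ℂ) (i : Fin 6) :
    MvPolynomial (Fin 6) ℂ →ₐ[ℂ] FractionRing (MvPolynomial (Fin 4) ℂ) :=
  aeval fun k => (algebraMap _ (FractionRing (MvPolynomial (Fin 4) ℂ)) (dh (φ i)))⁻¹ *
    algebraMap _ (FractionRing (MvPolynomial (Fin 4) ℂ)) (dh (φ k))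

theorem th_hom {P : MvPolynomial (Fin 6) ℂ} {N : ℕ} (hP : P.IsHomogeneous N) (i : Fin 6) :
    th φ i P = ((algebraMap _ (FractionRing (MvPolynomial (Fin 4) ℂ)) (dh (φ i)))⁻¹) ^ N *
      algebraMap _ (FractionRing (MvPolynomial (Fin 4) ℂ)) (dh (aeval φ P)) := by
  rw [th, aeval_mul_left hP]
  congr 1
  have e : algebraMap _ (FractionRing (MvPolynomial (Fin 4) ℂ)) (dh (aeval φ P)) =
      ((IsScalarTower.toAlgHom ℂ (MvPolynomial (Fin 4) ℂ)
        (FractionRing (MvPolynomial (Fin 4) ℂ))).comp (dh.comp (aeval φ))) P := rfl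
  rw [e, AlgHom.comp_apply, ← AlgHom.comp_apply, ← AlgHom.comp_assoc, comp_aeval]
  rfl

theorem phi_ne_zero (hF : Prime F) (hF3 : F.IsHomogeneous 3) (hg : ¬ F ∣ g)
    (h2 : ∀ i, F ∣ aeval ψ (φ i) - g * X i) (i : Fin 6) : φ i ≠ 0 := by
  intro h0
  have h3 := h2 i
  rw [h0, map_zero, zero_sub, dvd_neg] at h3
  rcases hF.dvd_or_dvd h3 with h4 | h4
  · exact hg h4
  · obtain ⟨c, hc⟩ := h4
    have hc0 : c ≠ 0 := by
      rintro rfl
      rw [mul_zero] at hc
      exact X_ne_zero i hc
    have h5 := totalDegree_mul_of_isDomain hF.ne_zero hc0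
    rw [← hc, totalDegree_X, hF3.totalDegree hF.ne_zero] at h5
    omega

theorem ker_th (hF : Prime F) (hF3 : F.IsHomogeneous 3)
    (hφ : ∀ i, (φ i).IsHomogeneous d) (h1 : aeval φ F = 0) (hg : ¬ F ∣ g)
    (h2 : ∀ i, F ∣ aeval ψ (φ i) - g * X i) (i : Fin 6) :
    RingHom.ker (th φ i) = Ideal.span {F, X i - 1} := by
  have hne : algebraMap _ (FractionRing (MvPolynomial (Fin 4) ℂ)) (dh (φ i)) ≠ 0 := by
    intro h0
    exact dh_ne_zero (hφ i) (phi_ne_zero hF hF3 hg h2 i)
      ((FaithfulSMul.algebraMap_eq_zero_iff _ _).mp h0)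
  have hX : th φ i (X i - 1) = 0 := by
    rw [map_sub, map_one, th, aeval_X, inv_mul_cancel₀ hne, sub_self]
  apply le_antisymm
  · intro p hp
    obtain ⟨N, P, hP, hpP⟩ := exists_homog (i := i) p
    have h3 : th φ i P = 0 := by
      obtain ⟨c, hc⟩ := Ideal.mem_span_singleton.mp hpP
      have : P = p - (X i - 1) * c := by rw [← hc]; ring
      rw [this, map_sub, map_mul, hX, zero_mul, sub_zero]
      exact hp
    rw [th_hom hP, mul_eq_zero] at h3
    have h4 : aeval φ P = 0 := by
      rcases h3 with h3 | h3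
      · exact absurd h3 (pow_ne_zero _ (inv_ne_zero hne))
      · by_contra hcon
        exact dh_ne_zero (hP.aeval φ hφ) hcon ((FaithfulSMul.algebraMap_eq_zero_iff _ _).mp h3)
    have h5 : F ∣ g ^ N * P := by
      have e1 : (aeval (fun k => g * X k) P : MvPolynomial (Fin 6) ℂ) = g ^ N * P := by
        rw [aeval_mul_left hP, aeval_X_left_apply]
      have e2 : (aeval (fun k => aeval ψ (φ k)) P : MvPolynomial (Fin 6) ℂ) = 0 := by
        have : (aeval (fun k => aeval ψ (φ k)) P : MvPolynomial (Fin 6) ℂ) =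
            aeval ψ (aeval φ P) := by
          rw [← AlgHom.comp_apply, comp_aeval]
        rw [this, h4, map_zero]
      have e3 : (Ideal.Quotient.mkₐ ℂ (Ideal.span {F})) (aeval (fun k => aeval ψ (φ k)) P) =
          (Ideal.Quotient.mkₐ ℂ (Ideal.span {F})) (aeval (fun k => g * X k) P) := by
        rw [← AlgHom.comp_apply, comp_aeval, ← AlgHom.comp_apply, comp_aeval]
        congr 2
        funext k
        rw [Ideal.Quotient.mkₐ_eq_mk, Ideal.Quotient.mk_eq_mk_iff_sub_mem,
          Ideal.mem_span_singleton]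
        exact h2 k
      rw [e2, e1, map_zero, Ideal.Quotient.mkₐ_eq_mk, eq_comm, Ideal.Quotient.eq_zero_iff_mem,
        Ideal.mem_span_singleton] at e3
      exact e3
    have h6 : F ∣ P := by
      rcases hF.dvd_or_dvd h5 with h6 | h6
      · exact absurd (hF.dvd_of_dvd_pow h6) hg
      · exact h6
    have h7 : p = (p - P) + P := by ring
    rw [h7]
    refine Ideal.add_mem _ ?_ ?_
    · exact Ideal.span_mono (by simp) hpP
    · exact Ideal.mem_of_dvd _ h6 (Ideal.subset_span (by simp))
  · rw [Ideal.span_le]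
    rintro x hx
    rcases hx with rfl | hx
    · change th φ i x = 0
      rw [th_hom hF3, h1, map_zero, map_zero, mul_zero]
    · rw [Set.mem_singleton_iff] at hx
      rw [hx]
      exact hX

theorem chart_field (hF : Prime F) (hF3 : F.IsHomogeneous 3)
    (hφ : ∀ i, (φ i).IsHomogeneous d) (hψ : ∀ j, (ψ j).IsHomogeneous e) (h1 : aeval φ F = 0)
    (hh : h ≠ 0) (hg : ¬ F ∣ g) (h3 : ∀ j, aeval φ (ψ j) = h * X j)
    (h2 : ∀ i, F ∣ aeval ψ (φ i) - g * X i) (i : Fin 6) :
    IsDomain (Chart F i) ∧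
      Nonempty (FractionRing (Chart F i) ≃ₐ[ℂ] FractionRing (MvPolynomial (Fin 4) ℂ)) := by
  have hker := ker_th hF hF3 hφ h1 hg h2 i
  let θ : Chart F i →ₐ[ℂ] FractionRing (MvPolynomial (Fin 4) ℂ) :=
    Ideal.Quotient.liftₐ (Ideal.span {F, X i - 1}) (th φ i) (fun a ha => by
      rw [← hker] at ha
      exact ha)
  have hθ : ∀ p : MvPolynomial (Fin 6) ℂ, θ (Ideal.Quotient.mk _ p) = th φ i p := fun p => rfl
  have hinj : Function.Injective θ := by
    rw [injective_iff_map_eq_zero]
    intro x hx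
    obtain ⟨p, rfl⟩ := Ideal.Quotient.mk_surjective x
    rw [hθ] at hx
    rw [Ideal.Quotient.eq_zero_iff_mem, ← hker]
    exact hx
  have hdom : IsDomain (Chart F i) := hinj.isDomain θ.toRingHom
  refine ⟨hdom, ⟨AlgEquiv.ofBijective (IsFractionRing.liftAlgHom (g := θ) hinj) ⟨?_, ?_⟩⟩⟩
  · exact RingHom.injective _
  · have hlift : ∀ p : MvPolynomial (Fin 6) ℂ,
        (IsFractionRing.liftAlgHom (g := θ) hinj : FractionRing (Chart F i) →ₐ[ℂ] _)
          (algebraMap (Chart F i) _ (Ideal.Quotient.mk (Ideal.span {F, X i - 1}) p)) =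
          th φ i p := by
      intro p
      rw [IsFractionRing.liftAlgHom_apply]
      exact IsFractionRing.lift_algebraMap hinj _
    set Θ := (IsFractionRing.liftAlgHom (g := θ) hinj :
      FractionRing (Chart F i) →ₐ[ℂ] FractionRing (MvPolynomial (Fin 4) ℂ)) with hΘ
    have hmem : ∀ j : Fin 5, algebraMap _ (FractionRing (MvPolynomial (Fin 4) ℂ))
        ((Fin.cons 1 X : Fin 5 → MvPolynomial (Fin 4) ℂ) j) ∈ Θ.fieldRange := by
      have hne : algebraMap _ (FractionRing (MvPolynomial (Fin 4) ℂ)) (dh (φ i)) ≠ 0 := by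
        intro h0
        exact dh_ne_zero (hφ i) (phi_ne_zero hF hF3 hg h2 i)
          ((FaithfulSMul.algebraMap_eq_zero_iff _ _).mp h0)
      have hdX : ∀ j, dh (X j) = (Fin.cons 1 X : Fin 5 → MvPolynomial (Fin 4) ℂ) j := by
        intro j
        rw [dh, aeval_X]
      have hhX : dh (h * X 0) ≠ 0 := by
        refine dh_ne_zero (d := d * e) ?_ (mul_ne_zero hh (X_ne_zero 0))
        rw [← h3 0]
        exact (hψ 0).aeval φ hφ
      have hdh : algebraMap _ (FractionRing (MvPolynomial (Fin 4) ℂ)) (dh h) ≠ 0 := by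
        intro h0
        apply hhX
        rw [map_mul, (FaithfulSMul.algebraMap_eq_zero_iff _ _).mp h0, zero_mul]
      have hval : ∀ j, th φ i (ψ j) =
          ((algebraMap _ (FractionRing (MvPolynomial (Fin 4) ℂ)) (dh (φ i)))⁻¹) ^ e *
            (algebraMap _ (FractionRing (MvPolynomial (Fin 4) ℂ)) (dh h) *
              algebraMap _ (FractionRing (MvPolynomial (Fin 4) ℂ))
                ((Fin.cons 1 X : Fin 5 → MvPolynomial (Fin 4) ℂ) j)) := by
        intro j
        rw [th_hom (hψ j), h3, map_mul, map_mul, hdX]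
      intro j
      have e1 : algebraMap _ (FractionRing (MvPolynomial (Fin 4) ℂ))
          ((Fin.cons 1 X : Fin 5 → MvPolynomial (Fin 4) ℂ) j) =
          th φ i (ψ j) / th φ i (ψ 0) := by
        rw [hval, hval, Fin.cons_zero, map_one, mul_one]
        have h5 := pow_ne_zero e (inv_ne_zero hne)
        field_simp
      rw [e1]
      refine div_mem ?_ ?_
      · exact ⟨_, hlift _⟩
      · exact ⟨_, hlift _⟩
    have hpoly : ∀ p : MvPolynomial (Fin 4) ℂ,
        algebraMap _ (FractionRing (MvPolynomial (Fin 4) ℂ)) p ∈ Θ.fieldRange := by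
      intro p
      induction p using MvPolynomial.induction_on with
      | C a =>
        have : algebraMap (MvPolynomial (Fin 4) ℂ) (FractionRing (MvPolynomial (Fin 4) ℂ)) (C a) =
            algebraMap ℂ _ a := by
          rw [IsScalarTower.algebraMap_apply ℂ (MvPolynomial (Fin 4) ℂ)]
          rfl
        rw [this]
        exact Θ.fieldRange.algebraMap_mem a
      | add p q hp hq => rw [map_add]; exact add_mem hp hq
      | mul_X p j hp =>
        rw [map_mul]
        refine mul_mem hp ?_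
        have := hmem j.succ
        rwa [Fin.cons_succ] at this
    intro z
    obtain ⟨a, b, -, rfl⟩ := IsFractionRing.div_surjective (A := MvPolynomial (Fin 4) ℂ) z
    exact div_mem (hpoly a) (hpoly b)

end main

end Vale.Agent.P287.H673
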