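import Vale.Agent.P287.H673.HB

/-!
Leaf H3 of helper674's Theorem S: a bitangent of the quartic gives a cubic scroll.
Leaf D (existence of a bitangent) is a hypothesis.
-/

namespace Vale.Agent.P287.H673

open MvPolynomial Vale.Agent.P287.H674 Vale.Agent.P287.Spec Matrix

variable {G : Fin 3 → Fin 3 → ℂ} {G1 : Fin 3 → ℂ} {g2 : ℂ} {φ : Fin 2 → Fin 3 → ℂ}

/-- leaf D -/
def Bitangent : Prop := ∀ B : MvPolynomial (Fin 3) ℂ, B.IsHomogeneous 4 →
    (∀ v : Fin 3 → ℂ, v ≠ 0 → ∃ i, eval v (pderiv i B) ≠ 0) →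
    ∃ (u v : Fin 3 → ℂ) (a b c : ℂ), LinearIndependent ℂ ![u, v] ∧
      ∀ s t : ℂ, eval (s • u + t • v) B = (a * s ^ 2 + b * s * t + c * t ^ 2) ^ 2

theorem bad (hg2 : g2 ≠ 0) (η : Fin 2 → ℂ) (A B C : ℂ)
    (h : ∀ T, BB4 G G1 g2 φ η T = (A + B * T + C * T ^ 2) ^ 2) :
    hh φ η = 0 ∧ gg0 G η = 0 := by
  have h0 := h 0
  have h1 := h 1
  have h2 := h (-1)
  have h3 := h 2
  have h4 := h (-2)
  unfold BB4 at h0 h1 h2 h3 h4
  have c4 : C ^ 2 = 1 := by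
    linear_combination (-1 / 4) * h0 + (1 / 6) * h1 + (1 / 6) * h2 - (1 / 24) * h3 - (1 / 24) * h4
  have c3 : B * C = 0 := by
    linear_combination (1 / 12) * h1 - (1 / 12) * h2 - (1 / 24) * h3 + (1 / 24) * h4
  have hC : C ≠ 0 := by rintro rfl; norm_num at c4
  have hB : B = 0 := (mul_eq_zero.mp c3).resolve_right hC
  subst hB
  have c1 : g2 * hh φ η = 0 := by
    linear_combination (-1 / 16) * h1 + (1 / 16) * h2
  have hh0 : hh φ η = 0 := (mul_eq_zero.mp c1).resolve_left hg2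
  rw [hh0] at h0 h1 h2 h3 h4
  have c2 : A * C = gg1 G1 η := by
    linear_combination (-1 / 4) * h1 - (1 / 4) * h2 + (1 / 2) * h0 + (-1 / 2) * c4
  refine ⟨hh0, ?_⟩
  have : g2 * gg0 G η = 0 := by
    linear_combination (-1 / 4) * h0 + (1 / 4) * A ^ 2 * c4 - (1 / 4) * (A * C + gg1 G1 η) * c2
  exact (mul_eq_zero.mp this).resolve_left hg2

/-- the bitangent does not pass through `(0,0,1)` -/
theorem bad2 {F : MvPolynomial (Fin 6) ℂ} (hF : SmoothCubic F) (h : IsFF G G1 g2 φ F)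
    (hG : ∀ i j, G i j = G j i) (hg2 : g2 ≠ 0) (u v : Fin 3 → ℂ) (a b c : ℂ)
    (hli : ∀ s t : ℂ, s • u + t • v = 0 → s = 0 ∧ t = 0)
    (hs : ∀ s t : ℂ, BB4 G G1 g2 φ ![s * u 0 + t * v 0, s * u 1 + t * v 1] (s * u 2 + t * v 2)
      = (a * s ^ 2 + b * s * t + c * t ^ 2) ^ 2)
    (hd : u 0 * v 1 - u 1 * v 0 = 0) (hu : u 0 ≠ 0 ∨ u 1 ≠ 0) : False := by
  obtain ⟨l, hl0, hl1⟩ : ∃ l, v 0 = l * u 0 ∧ v 1 = l * u 1 := by
    rcases hu with hu | hu
    · refine ⟨v 0 / u 0, by field_simp, ?_⟩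
      field_simp
      linear_combination hd
    · refine ⟨v 1 / u 1, ?_, by field_simp⟩
      field_simp
      linear_combination -hd
  have hx : v 2 - l * u 2 ≠ 0 := by
    intro hx
    have := (hli (-l) 1 (by
      funext i
      fin_cases i
      · simp [hl0]
      · simp [hl1]
      · simp only [Fin.reduceFinMk, Pi.add_apply, Pi.smul_apply, smul_eq_mul, Pi.zero_apply]
        linear_combination hx)).2
    exact one_ne_zero this
  obtain ⟨x, hxd⟩ : ∃ x, x = v 2 - l * u 2 := ⟨_, rfl⟩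
  rw [← hxd] at hx
  have key := bad (G := G) (G1 := G1) (φ := φ) hg2 ![u 0, u 1]
    (a * (1 + l * (u 2 / x)) ^ 2 - b * (1 + l * (u 2 / x)) * (u 2 / x) + c * (u 2 / x) ^ 2)
    (-2 * a * (1 + l * (u 2 / x)) * (l / x) + b * ((1 + l * (u 2 / x)) / x + (l / x) * (u 2 / x))
      - 2 * c * (u 2 / x) / x)
    (a * (l / x) ^ 2 - b * (l / x) / x + c / x ^ 2) (fun T => by
      have h1 := hs (1 - l * ((T - u 2) / x)) ((T - u 2) / x)
      have e0 : (1 - l * ((T - u 2) / x)) * u 0 + (T - u 2) / x * v 0 = u 0 := by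
        rw [hl0]; ring
      have e1 : (1 - l * ((T - u 2) / x)) * u 1 + (T - u 2) / x * v 1 = u 1 := by
        rw [hl1]; ring
      have e2 : (1 - l * ((T - u 2) / x)) * u 2 + (T - u 2) / x * v 2 = T := by
        have : v 2 = x + l * u 2 := by rw [hxd]; ring
        rw [this]; field_simp; ring
      rw [e0, e1, e2] at h1
      rw [h1]
      congr 1
      field_simp
      ring)
  have hη : (![u 0, u 1] : Fin 2 → ℂ) ≠ 0 := by
    intro h0
    rcases hu with hu | hu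
    · exact hu (by simpa using congrFun h0 0)
    · exact hu (by simpa using congrFun h0 1)
  exact no_common hF h hG _ hη key.1 key.2

/-- LEAF H3, from leaf D -/
theorem exists_scroll_of (hD : Bitangent) {F : MvPolynomial (Fin 6) ℂ} (hF : SmoothCubic F)
    (h : IsFF G G1 g2 φ F) (hG : ∀ i j, G i j = G j i) (hg2 : g2 ≠ 0) :
    ∃ (κ : Fin 2 → ℂ) (θ : Fin 3 → ℂ), ∀ η : Fin 2 → ℂ,
      let K := κ 0 * η 0 + κ 1 * η 1
      let Θ := θ 0 * η 0 ^ 2 + θ 1 * η 0 * η 1 + θ 2 * η 1 ^ 2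
      g2 * Θ ^ 2 + (gg1 G1 η + K ^ 2) * Θ + (gg0 G η + 2 * hh φ η * K) = 0 := by
  obtain ⟨u, v, a, b, c, hli, hsq⟩ := hD (BP G G1 g2 φ) (BP_hom G G1 g2 φ)
    (fun v hv => smooth_quartic hF h hG hg2 _ (eval_BP G G1 g2 φ) v hv)
  rw [LinearIndependent.pair_iff] at hli
  have hs : ∀ s t : ℂ,
      BB4 G G1 g2 φ ![s * u 0 + t * v 0, s * u 1 + t * v 1] (s * u 2 + t * v 2)
      = (a * s ^ 2 + b * s * t + c * t ^ 2) ^ 2 := by
    intro s t
    rw [← hsq s t, eval_BP]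
    rfl
  by_cases hd : u 0 * v 1 - u 1 * v 0 = 0
  · exfalso
    by_cases hu : u 0 ≠ 0 ∨ u 1 ≠ 0
    · exact bad2 hF h hG hg2 u v a b c hli hs hd hu
    · push Not at hu
      have hv : v 0 ≠ 0 ∨ v 1 ≠ 0 := by
        by_contra hv
        push Not at hv
        have := hli (v 2) (-(u 2)) (by
          funext i
          fin_cases i
          · simp [hu.1, hv.1]
          · simp [hu.2, hv.2]
          · simp only [Fin.reduceFinMk, Pi.add_apply, Pi.smul_apply, smul_eq_mul, Pi.zero_apply]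
            ring)
        have h1 := (hli 1 0 (by
          funext i
          fin_cases i
          · simp [hu.1]
          · simp [hu.2]
          · simpa using this.2)).1
        exact one_ne_zero h1
      refine bad2 hF h hG hg2 v u c b a (fun s t hst => ?_) (fun s t => ?_) (by
        linear_combination -hd) hv
      · have := hli t s (by rw [add_comm]; exact hst)
        exact ⟨this.2, this.1⟩
      · have h1 := hs t s
        rw [add_comm (s * v 0), add_comm (s * v 1), add_comm (s * v 2), h1]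
        ring
  · obtain ⟨d, hdd⟩ : ∃ d, d = u 0 * v 1 - u 1 * v 0 := ⟨_, rfl⟩
    rw [← hdd] at hd
    obtain ⟨s0, hs0⟩ : ∃ x, x = v 1 / d := ⟨_, rfl⟩
    obtain ⟨s1, hs1⟩ : ∃ x, x = -v 0 / d := ⟨_, rfl⟩
    obtain ⟨t0, ht0⟩ : ∃ x, x = -u 1 / d := ⟨_, rfl⟩
    obtain ⟨t1, ht1⟩ : ∃ x, x = u 0 / d := ⟨_, rfl⟩
    obtain ⟨k0, hk0⟩ : ∃ x, x = s0 * u 2 + t0 * v 2 := ⟨_, rfl⟩
    obtain ⟨k1, hk1⟩ : ∃ x, x = s1 * u 2 + t1 * v 2 := ⟨_, rfl⟩
    obtain ⟨r0, hr0⟩ : ∃ x, x = a * s0 ^ 2 + b * s0 * t0 + c * t0 ^ 2 := ⟨_, rfl⟩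
    obtain ⟨r1, hr1⟩ : ∃ x, x = 2 * a * s0 * s1 + b * (s0 * t1 + s1 * t0) + 2 * c * t0 * t1 :=
      ⟨_, rfl⟩
    obtain ⟨r2, hr2⟩ : ∃ x, x = a * s1 ^ 2 + b * s1 * t1 + c * t1 ^ 2 := ⟨_, rfl⟩
    refine ⟨![k0, k1], ![(-(k0 ^ 2 + G1 0) + r0) / (2 * g2), (-(2 * k0 * k1 + 2 * G1 1) + r1)
      / (2 * g2), (-(k1 ^ 2 + G1 2) + r2) / (2 * g2)], fun η => ?_⟩
    intro K Θ
    have h1 := hs (s0 * η 0 + s1 * η 1) (t0 * η 0 + t1 * η 1)
    have e0 : (s0 * η 0 + s1 * η 1) * u 0 + (t0 * η 0 + t1 * η 1) * v 0 = η 0 := by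
      rw [hs0, hs1, ht0, ht1]
      field_simp
      rw [hdd]
      ring
    have e1 : (s0 * η 0 + s1 * η 1) * u 1 + (t0 * η 0 + t1 * η 1) * v 1 = η 1 := by
      rw [hs0, hs1, ht0, ht1]
      field_simp
      rw [hdd]
      ring
    have e2 : (s0 * η 0 + s1 * η 1) * u 2 + (t0 * η 0 + t1 * η 1) * v 2 = K := by
      simp only [K, cons_val_zero, cons_val_one, hk0, hk1]
      ring
    have eη : (![η 0, η 1] : Fin 2 → ℂ) = η := by
      funext i; fin_cases i <;> rfl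
    rw [e0, e1, e2, eη] at h1
    have hΘ : 2 * g2 * Θ = -(K ^ 2 + gg1 G1 η) + (r0 * η 0 ^ 2 + r1 * η 0 * η 1 + r2 * η 1 ^ 2) := by
      simp only [Θ, K, cons_val_zero, cons_val_one, cons_val, gg1, Spec.sq, Fin.sum_univ_three]
      field_simp
      ring
    have hρ : a * (s0 * η 0 + s1 * η 1) ^ 2 + b * (s0 * η 0 + s1 * η 1) * (t0 * η 0 + t1 * η 1)
        + c * (t0 * η 0 + t1 * η 1) ^ 2 = r0 * η 0 ^ 2 + r1 * η 0 * η 1 + r2 * η 1 ^ 2 := by
      rw [hr0, hr1, hr2]; ring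
    rw [hρ] at h1
    obtain ⟨R, hR⟩ : ∃ R, R = r0 * η 0 ^ 2 + r1 * η 0 * η 1 + r2 * η 1 ^ 2 := ⟨_, rfl⟩
    rw [← hR] at h1 hΘ
    unfold BB4 at h1
    clear_value K Θ
    have : (4 * g2) * (g2 * Θ ^ 2 + (gg1 G1 η + K ^ 2) * Θ + (gg0 G η + 2 * hh φ η * K)) = 0 := by
      linear_combination (2 * g2 * Θ + (K ^ 2 + gg1 G1 η) + R) * hΘ - h1
    rcases mul_eq_zero.mp this with hz | hz
    · exact absurd (by simpa using hz) hg2
    · exact hz

end Vale.Agent.P287.H673
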