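import Vale.Agent.P287.H673.HC
import Vale.Agent.P287.H46.Bitangent

/-!
Leaf H3 of helper674's Theorem S.
-/

namespace Vale.Agent.P287.H673

open MvPolynomial Vale.Agent.P287.H674 Vale.Agent.P287.Spec Matrix

variable {G : Fin 3 → Fin 3 → ℂ} {G1 : Fin 3 → ℂ} {g2 : ℂ} {φ : Fin 2 → Fin 3 → ℂ}

/-- LEAF H3 -/
theorem exists_scroll {F : MvPolynomial (Fin 6) ℂ} (hF : SmoothCubic F) (h : IsFF G G1 g2 φ F)
    (hG : ∀ i j, G i j = G j i) (hg2 : g2 ≠ 0) :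
    ∃ (κ : Fin 2 → ℂ) (θ : Fin 3 → ℂ), ∀ η : Fin 2 → ℂ,
      let K := κ 0 * η 0 + κ 1 * η 1
      let Θ := θ 0 * η 0 ^ 2 + θ 1 * η 0 * η 1 + θ 2 * η 1 ^ 2
      g2 * Θ ^ 2 + (gg1 G1 η + K ^ 2) * Θ + (gg0 G η + 2 * hh φ η * K) = 0 :=
  exists_scroll_of Vale.Agent.P287.H46.exists_bitangent hF h hG hg2

end Vale.Agent.P287.H673
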