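import Mathlib

/-!
P287, helper673: every cubic surface contains a line, part 1.
All but finitely many members of a pencil through the Fermat cubic are smooth.
-/

namespace Vale.Agent.P287.H673

open Finset

/-- two equal entries in a five-tuple from a four-element set -/
theorem pigeon (s : Fin 5 → Fin 4) : ∃ kl : Fin 5 × Fin 5, kl.1 ≠ kl.2 ∧ s kl.1 = s kl.2 := by
  obtain ⟨k, l, h1, h2⟩ := Fintype.exists_ne_map_eq_of_card_lt s (by simp)
  exact ⟨(k, l), h1, h2⟩

noncomputable def pk (s : Fin 5 → Fin 4) : Fin 5 := (pigeon s).choose.1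
noncomputable def pl (s : Fin 5 → Fin 4) : Fin 5 := (pigeon s).choose.2

theorem pk_ne (s : Fin 5 → Fin 4) : pk s ≠ pl s := (pigeon s).choose_spec.1
theorem pk_eq (s : Fin 5 → Fin 4) : s (pk s) = s (pl s) := (pigeon s).choose_spec.2

noncomputable def upd (s : Fin 5 → Fin 4) (a b : Fin 4) : Fin 5 → Fin 4 :=
  Function.update (Function.update s (pk s) a) (pl s) b

/-- the operator on the space of monomials of degree five -/
noncomputable def opN (D : Fin 4 → Fin 4 → Fin 4 → ℂ) :
    ((Fin 5 → Fin 4) → ℂ) →ₗ[ℂ] ((Fin 5 → Fin 4) → ℂ) where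
  toFun x := fun s => ∑ a, ∑ b, D a b (s (pk s)) * x (upd s a b)
  map_add' x y := by
    funext s
    simp only [Pi.add_apply, mul_add, Finset.sum_add_distrib]
  map_smul' r x := by
    funext s
    simp only [Pi.smul_apply, smul_eq_mul, RingHom.id_apply, Finset.mul_sum]
    refine Finset.sum_congr rfl fun a _ => Finset.sum_congr rfl fun b _ => ?_
    ring

noncomputable def mon (v : Fin 4 → ℂ) (s : Fin 5 → Fin 4) : ℂ := ∏ m, v (s m)

theorem prod_split (v : Fin 4 → ℂ) (s : Fin 5 → Fin 4) {k l : Fin 5} (h : k ≠ l) :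
    mon v s = v (s k) * (v (s l) * ∏ m ∈ (univ.erase k).erase l, v (s m)) := by
  unfold mon
  rw [Finset.mul_prod_erase (univ.erase k) (fun m => v (s m))
    (Finset.mem_erase.mpr ⟨h.symm, Finset.mem_univ l⟩),
    Finset.mul_prod_erase univ (fun m => v (s m)) (Finset.mem_univ k)]

theorem mon_upd (v : Fin 4 → ℂ) (s : Fin 5 → Fin 4) (a b : Fin 4) :
    mon v (upd s a b) = v a * (v b * ∏ m ∈ (univ.erase (pk s)).erase (pl s), v (s m)) := by
  rw [prod_split v (upd s a b) (pk_ne s)]
  have h1 : upd s a b (pk s) = a := by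
    unfold upd
    rw [Function.update_of_ne (pk_ne s), Function.update_self]
  have h2 : upd s a b (pl s) = b := by
    unfold upd
    rw [Function.update_self]
  rw [h1, h2]
  congr 2
  refine Finset.prod_congr rfl fun m hm => ?_
  have h3 := Finset.mem_erase.mp hm
  have h4 := Finset.mem_erase.mp h3.2
  unfold upd
  rw [Function.update_of_ne h3.1, Function.update_of_ne h4.1]

theorem opN_mon (D : Fin 4 → Fin 4 → Fin 4 → ℂ) {v : Fin 4 → ℂ} {t : ℂ}
    (h : ∀ i, v i ^ 2 + t * ∑ a, ∑ b, D a b i * (v a * v b) = 0) :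
    mon v + t • opN D (mon v) = 0 := by
  funext s
  have e : opN D (mon v) s = (∑ a, ∑ b, D a b (s (pk s)) * (v a * v b)) *
      ∏ m ∈ (univ.erase (pk s)).erase (pl s), v (s m) := by
    change ∑ a, ∑ b, D a b (s (pk s)) * mon v (upd s a b) = _
    simp only [mon_upd, Finset.sum_mul]
    refine Finset.sum_congr rfl fun a _ => Finset.sum_congr rfl fun b _ => ?_
    ring
  have h1 := h (s (pk s))
  rw [Pi.add_apply, Pi.smul_apply, smul_eq_mul, e, prod_split v s (pk_ne s), ← pk_eq s,
    Pi.zero_apply]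
  linear_combination (∏ m ∈ (univ.erase (pk s)).erase (pl s), v (s m)) * h1

theorem mon_ne_zero {v : Fin 4 → ℂ} (hv : v ≠ 0) : mon v ≠ 0 := by
  obtain ⟨j, hj⟩ := Function.ne_iff.mp hv
  intro h
  have h1 := congrFun h (fun _ => j)
  simp only [mon, Finset.prod_const, Pi.zero_apply] at h1
  exact hj (pow_eq_zero_iff (by simp) |>.mp h1)

/-- only finitely many members of the pencil are singular -/
theorem finite_singular (D : Fin 4 → Fin 4 → Fin 4 → ℂ) :
    {t : ℂ | ∃ v : Fin 4 → ℂ, v ≠ 0 ∧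
      ∀ i, v i ^ 2 + t * ∑ a, ∑ b, D a b i * (v a * v b) = 0}.Finite := by
  have hfin := Module.End.finite_hasEigenvalue (opN D)
  have h2 : ((fun μ : ℂ => -μ⁻¹) '' {μ | Module.End.HasEigenvalue (opN D) μ}).Finite :=
    hfin.image _
  refine h2.subset ?_
  rintro t ⟨v, hv, h⟩
  have h3 := opN_mon D h
  have ht : t ≠ 0 := by
    rintro rfl
    rw [zero_smul, add_zero] at h3
    exact mon_ne_zero hv h3
  refine ⟨-t⁻¹, ?_, ?_⟩
  · refine Module.End.hasEigenvalue_of_hasEigenvector (x := mon v) ⟨?_, mon_ne_zero hv⟩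
    rw [Module.End.mem_eigenspace_iff]
    have h4 : t⁻¹ • (mon v + t • opN D (mon v)) = 0 := by rw [h3, smul_zero]
    rw [smul_add, smul_smul, inv_mul_cancel₀ ht, one_smul] at h4
    rw [neg_smul]
    exact eq_neg_of_add_eq_zero_right h4
  · change -(-t⁻¹)⁻¹ = t
    rw [inv_neg, inv_inv, neg_neg]

end Vale.Agent.P287.H673
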