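import Mathlib

/-!
P287, helper673: every cubic surface contains a line, part 2.
A line on a smooth cubic surface deforms with the surface.
-/

namespace Vale.Agent.P287.H673

open Finset Topology

/-- trilinear forms -/
abbrev Tri (V : Type*) [AddCommGroup V] [Module ℂ V] := V →ₗ[ℂ] V →ₗ[ℂ] V →ₗ[ℂ] ℂ

structure Sym3 {V : Type*} [AddCommGroup V] [Module ℂ V] (T : Tri V) : Prop where
  s1 : ∀ x y z, T x y z = T y x z
  s2 : ∀ x y z, T x y z = T x z y

variable {V : Type*} [AddCommGroup V] [Module ℂ V]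

/-- the surface contains a line -/
def HasLine (T : Tri V) : Prop :=
  ∃ L : Submodule ℂ V, Module.finrank ℂ L = 2 ∧ ∀ w ∈ L, T w w w = 0

theorem binary_root (A B C : ℂ) :
    ∃ s1 s2 : ℂ, (s1 ≠ 0 ∨ s2 ≠ 0) ∧ A * s1 ^ 2 + 2 * B * s1 * s2 + C * s2 ^ 2 = 0 := by
  by_cases hA : A = 0
  · exact ⟨1, 0, Or.inl one_ne_zero, by rw [hA]; ring⟩
  · obtain ⟨r, hr⟩ := IsAlgClosed.exists_eq_mul_self (B ^ 2 - A * C)
    refine ⟨(-B + r) / A, 1, Or.inr one_ne_zero, ?_⟩
    field_simp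
    linear_combination (-1 : ℂ) * hr

/-- the core linear algebra: the Sylvester matrix is invertible -/
theorem inj_core {p1 p2 q0 q1 q2 α β γ δ : ℂ} (h0 : q0 ≠ 0)
    (h : q0 * p2 ^ 2 - 4 * q1 * p1 * p2 + 4 * q2 * p1 ^ 2 ≠ 0)
    (E0 : β * q0 = 0) (E1 : 2 * p1 * α + (2 * q1 * β + q0 * δ) = 0)
    (E2 : (p2 * α + 2 * p1 * γ) + (q2 * β + 2 * q1 * δ) = 0) (E3 : p2 * γ + q2 * δ = 0) :
    α = 0 ∧ β = 0 ∧ γ = 0 ∧ δ = 0 := by
  have hβ : β = 0 := (mul_eq_zero.mp E0).resolve_right h0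
  subst hβ
  have hα : (q0 * p2 ^ 2 - 4 * q1 * p1 * p2 + 4 * q2 * p1 ^ 2) * α = 0 := by
    linear_combination (2 * p1 * q2 - 2 * q1 * p2) * E1 + q0 * p2 * E2 - 2 * p1 * q0 * E3
  have hγ : (q0 * p2 ^ 2 - 4 * q1 * p1 * p2 + 4 * q2 * p1 ^ 2) * γ = 0 := by
    linear_combination (-p2 * q2) * E1 + (2 * p1 * q2) * E2 + (q0 * p2 - 4 * p1 * q1) * E3
  have hδ : (q0 * p2 ^ 2 - 4 * q1 * p1 * p2 + 4 * q2 * p1 ^ 2) * δ = 0 := by
    linear_combination (p2 ^ 2) * E1 - (2 * p1 * p2) * E2 + (4 * p1 ^ 2) * E3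
  exact ⟨(mul_eq_zero.mp hα).resolve_left h, rfl, (mul_eq_zero.mp hγ).resolve_left h,
    (mul_eq_zero.mp hδ).resolve_left h⟩

theorem hasDerivAt_poly {f : ℂ → ℂ} (A B C : ℂ) (h : ∀ s, f s = s * A + s ^ 2 * B + s ^ 3 * C) :
    HasDerivAt f A 0 := by
  have e : f = fun s => s * A + s ^ 2 * B + s ^ 3 * C := funext h
  rw [e]
  have h1 : HasDerivAt (fun s : ℂ => s * A) (1 * A) 0 := (hasDerivAt_id 0).mul_const A
  have h2 : HasDerivAt (fun s : ℂ => s ^ 2 * B) (((2 : ℕ) : ℂ) * 0 ^ 1 * B) 0 :=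
    (hasDerivAt_pow 2 (0 : ℂ)).mul_const B
  have h3 : HasDerivAt (fun s : ℂ => s ^ 3 * C) (((3 : ℕ) : ℂ) * 0 ^ 2 * C) 0 :=
    (hasDerivAt_pow 3 (0 : ℂ)).mul_const C
  have h4 := (h1.add h2).add h3
  have e2 : (1 * A + ((2 : ℕ) : ℂ) * 0 ^ 1 * B) + ((3 : ℕ) : ℂ) * 0 ^ 2 * C = A := by ring
  rw [e2] at h4
  exact h4

abbrev C5 := ℂ × ℂ × ℂ × ℂ × ℂ

def uu (u x y : V) (z : C5) : V := u + z.2.1 • x + z.2.2.1 • y
def ww (w x y : V) (z : C5) : V := w + z.2.2.2.1 • x + z.2.2.2.2 • y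

/-- the defining functions of the lines near a given one -/
def GG (T D : Tri V) (u w x y : V) (z : C5) : C5 :=
  (z.1, (T + z.1 • D) (uu u x y z) (uu u x y z) (uu u x y z),
    (T + z.1 • D) (uu u x y z) (uu u x y z) (ww w x y z),
    (T + z.1 • D) (uu u x y z) (ww w x y z) (ww w x y z),
    (T + z.1 • D) (ww w x y z) (ww w x y z) (ww w x y z))

theorem contDiff_GG (T D : Tri V) (u w x y : V) : ContDiff ℂ 1 (GG T D u w x y) := by
  unfold GG uu ww
  simp only [map_add, map_smul, LinearMap.add_apply, LinearMap.smul_apply, smul_eq_mul]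
  fun_prop

/-- the derivative in a direction, from a curve -/
theorem fderiv_comp {T D : Tri V} (hT : Sym3 T) (u w x y : V) (v : C5)
    (h0 : T u u u = 0) (h1 : T u u w = 0) (h2 : T u w w = 0) (h3 : T w w w = 0) (hv : v.1 = 0) :
    fderiv ℂ (GG T D u w x y) 0 v =
      (0, 3 * T u u (v.2.1 • x + v.2.2.1 • y),
        2 * T u w (v.2.1 • x + v.2.2.1 • y) + T u u (v.2.2.2.1 • x + v.2.2.2.2 • y),
        T w w (v.2.1 • x + v.2.2.1 • y) + 2 * T u w (v.2.2.2.1 • x + v.2.2.2.2 • y),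
        3 * T w w (v.2.2.2.1 • x + v.2.2.2.2 • y)) := by
  set p := v.2.1 • x + v.2.2.1 • y with hp
  set q := v.2.2.2.1 • x + v.2.2.2.2 • y with hq
  have hu : ∀ s : ℂ, uu u x y (s • v) = u + s • p := by
    intro s
    simp only [uu, hp, Prod.smul_snd, Prod.smul_fst, smul_eq_mul, smul_add, smul_smul, add_assoc]
  have hw : ∀ s : ℂ, ww w x y (s • v) = w + s • q := by
    intro s
    simp only [ww, hq, Prod.smul_snd, Prod.smul_fst, smul_eq_mul, smul_add, smul_smul, add_assoc]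
  have hd : HasFDerivAt (GG T D u w x y) (fderiv ℂ (GG T D u w x y) 0) 0 :=
    ((contDiff_GG T D u w x y).differentiable one_ne_zero 0).hasFDerivAt
  have hc : HasDerivAt (fun s : ℂ => GG T D u w x y (s • v)) (fderiv ℂ (GG T D u w x y) 0 v) 0 := by
    have hline : HasDerivAt (fun s : ℂ => s • v) ((1 : ℂ) • v) 0 :=
      (hasDerivAt_id (0 : ℂ)).smul_const v
    rw [one_smul] at hline
    have hd' : HasFDerivAt (GG T D u w x y) (fderiv ℂ (GG T D u w x y) 0) ((0 : ℂ) • v) := by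
      rw [zero_smul]; exact hd
    exact hd'.comp_hasDerivAt (0 : ℂ) hline
  refine hc.unique ?_
  have hG : (fun s : ℂ => GG T D u w x y (s • v)) = fun s : ℂ =>
      ((0 : ℂ), T (u + s • p) (u + s • p) (u + s • p), T (u + s • p) (u + s • p) (w + s • q),
        T (u + s • p) (w + s • q) (w + s • q), T (w + s • q) (w + s • q) (w + s • q)) := by
    funext s
    simp only [GG, hu, hw, Prod.smul_fst, hv, smul_zero, zero_smul, add_zero]
  rw [hG]
  refine HasDerivAt.prodMk (hasDerivAt_const _ _) (HasDerivAt.prodMk ?_ (HasDerivAt.prodMk ?_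
    (HasDerivAt.prodMk ?_ ?_)))
  · refine hasDerivAt_poly _ (3 * T u p p) (T p p p) fun s => ?_
    simp only [map_add, map_smul, LinearMap.add_apply, LinearMap.smul_apply, smul_eq_mul]
    rw [h0, hT.s1 p u u, hT.s2 u p u, hT.s1 p u p, hT.s2 p p u, hT.s1 p u p]
    ring
  · refine hasDerivAt_poly _ (T p p w + 2 * T u p q) (T p p q) fun s => ?_
    simp only [map_add, map_smul, LinearMap.add_apply, LinearMap.smul_apply, smul_eq_mul]
    rw [h1, hT.s1 p u w, hT.s2 u p w, hT.s1 p u q]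
    ring
  · refine hasDerivAt_poly _ (T u q q + 2 * T p w q) (T p q q) fun s => ?_
    simp only [map_add, map_smul, LinearMap.add_apply, LinearMap.smul_apply, smul_eq_mul]
    rw [h2, hT.s2 p q w, hT.s2 u q w, hT.s1 p w w, hT.s2 w p w]
    ring
  · refine hasDerivAt_poly _ (3 * T w q q) (T q q q) fun s => ?_
    simp only [map_add, map_smul, LinearMap.add_apply, LinearMap.smul_apply, smul_eq_mul]
    rw [h3, hT.s1 q w w, hT.s2 w q w, hT.s1 q w q, hT.s2 q q w, hT.s1 q w q]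
    ring

/-- polarization -/
theorem polar {T : Tri V} (hT : Sym3 T) {L : Submodule ℂ V} (hL : ∀ w ∈ L, T w w w = 0)
    {u w : V} (hu : u ∈ L) (hw : w ∈ L) : T u u w = 0 := by
  have e : ∀ s : ℂ, T (u + s • w) (u + s • w) (u + s • w) =
      T u u u + s * (3 * T u u w) + s ^ 2 * (3 * T u w w) + s ^ 3 * T w w w := by
    intro s
    simp only [map_add, map_smul, LinearMap.add_apply, LinearMap.smul_apply, smul_eq_mul]
    rw [hT.s1 w u u, hT.s2 u w u, hT.s1 w u w, hT.s2 w w u, hT.s1 w u w]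
    ring
  have e1 := e 1
  have e2 := e (-1)
  rw [hL _ (L.add_mem hu (L.smul_mem _ hw)), hL _ hu, hL _ hw] at e1
  rw [hL _ (L.add_mem hu (L.smul_mem _ hw)), hL _ hu, hL _ hw] at e2
  linear_combination (-1 / 6 : ℂ) * e1 + (1 / 6 : ℂ) * e2

theorem polar3 {T : Tri V} (hT : Sym3 T) {L : Submodule ℂ V} (hL : ∀ w ∈ L, T w w w = 0)
    {u w v : V} (hu : u ∈ L) (hw : w ∈ L) (hv : v ∈ L) : T u w v = 0 := by
  have h1 := polar hT hL (L.add_mem hu hw) hv
  simp only [map_add, LinearMap.add_apply] at h1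
  rw [polar hT hL hu hv, polar hT hL hw hv, hT.s1 w u v] at h1
  linear_combination (1 / 2 : ℂ) * h1

/-- a pair of independent vectors spans a line -/
theorem hasLine_of_pair {T : Tri V} (hT : Sym3 T) {u w : V}
    (hi : ∀ r s : ℂ, r • u + s • w = 0 → r = 0 ∧ s = 0)
    (h0 : T u u u = 0) (h1 : T u u w = 0) (h2 : T u w w = 0) (h3 : T w w w = 0) : HasLine T := by
  have hli : LinearIndependent ℂ ![u, w] := LinearIndependent.pair_iff.mpr hi
  refine ⟨Submodule.span ℂ (Set.range ![u, w]), ?_, ?_⟩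
  · rw [finrank_span_eq_card hli]
    simp
  · intro z hz
    rw [Matrix.range_cons, Matrix.range_cons, Matrix.range_empty, Set.union_empty,
      Set.singleton_union, Submodule.mem_span_pair] at hz
    obtain ⟨r, s, rfl⟩ := hz
    simp only [map_add, map_smul, LinearMap.add_apply, LinearMap.smul_apply, smul_eq_mul]
    rw [hT.s1 w u u, hT.s2 u w u, hT.s1 w u w, hT.s2 w w u, hT.s1 w u w, h0, h1, h2, h3]
    ring

theorem sym_add {T D : Tri V} (hT : Sym3 T) (hD : Sym3 D) (τ : ℂ) : Sym3 (T + τ • D) := by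
  constructor
  · intro x y z
    simp only [LinearMap.add_apply, LinearMap.smul_apply]
    rw [hT.s1 x y z, hD.s1 x y z]
  · intro x y z
    simp only [LinearMap.add_apply, LinearMap.smul_apply]
    rw [hT.s2 x y z, hD.s2 x y z]

/-- openness -/
theorem eventually_line [FiniteDimensional ℂ V] (hV : Module.finrank ℂ V = 4) {T D : Tri V}
    (hT : Sym3 T) (hD : Sym3 D)
    (hs : ∀ v, v ≠ 0 → ∃ w, T v v w ≠ 0) (hl : HasLine T) :
    ∀ᶠ τ in 𝓝 (0 : ℂ), HasLine (T + τ • D) := by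
  obtain ⟨L, hL2, hL⟩ := hl
  obtain ⟨L', hc⟩ := Submodule.exists_isCompl L
  have hL'2 : Module.finrank ℂ L' = 2 := by
    have := Submodule.finrank_add_eq_of_isCompl hc
    omega
  let b' := Module.finBasisOfFinrankEq ℂ L' hL'2
  obtain ⟨x, hx⟩ : ∃ x : V, x = (b' 0 : V) := ⟨_, rfl⟩
  obtain ⟨y, hy⟩ : ∃ y : V, y = (b' 1 : V) := ⟨_, rfl⟩
  have hxL : x ∈ L' := by rw [hx]; exact (b' 0).2
  have hyL : y ∈ L' := by rw [hy]; exact (b' 1).2
  have hspan : ∀ z ∈ L', ∃ α β : ℂ, z = α • x + β • y := by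
    intro z hz
    refine ⟨b'.repr ⟨z, hz⟩ 0, b'.repr ⟨z, hz⟩ 1, ?_⟩
    have := b'.sum_repr ⟨z, hz⟩
    rw [Fin.sum_univ_two] at this
    have h2 := congrArg (Subtype.val) this
    rw [hx, hy]
    exact h2.symm
  have hind' : ∀ α β : ℂ, α • x + β • y = 0 → α = 0 ∧ β = 0 := by
    intro α β h
    have h1 : α • b' 0 + β • b' 1 = 0 := by
      apply Subtype.ext
      rw [hx, hy] at h
      exact h
    have h2 := Fintype.linearIndependent_iff.mp b'.linearIndependent ![α, β]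
      (by rw [Fin.sum_univ_two]; exact h1)
    exact ⟨h2 0, h2 1⟩
  -- smoothness along the line
  have hsm : ∀ v ∈ L, v ≠ 0 → T v v x = 0 → T v v y ≠ 0 := by
    intro v hv hv0 h1 h2
    obtain ⟨z, hz⟩ := hs v hv0
    have hzt : z ∈ L ⊔ L' := by rw [hc.sup_eq_top]; exact Submodule.mem_top
    obtain ⟨l, hl, l', hl', rfl⟩ := Submodule.mem_sup.mp hzt
    obtain ⟨α, β, rfl⟩ := hspan l' hl'
    apply hz
    rw [map_add, map_add, map_smul, map_smul, h1, h2, polar hT hL hv hl]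
    simp
  have hrk : 1 < Module.finrank ℂ L := by omega
  have : Nontrivial L := Module.nontrivial_of_finrank_pos (R := ℂ) (by omega)
  -- an isotropic vector for the quadratic form of `x`
  obtain ⟨u, huL, hu0, hux⟩ : ∃ u ∈ L, u ≠ 0 ∧ T u u x = 0 := by
    obtain ⟨u0, hu0⟩ := exists_ne (0 : L)
    obtain ⟨w0, hw0⟩ := exists_linearIndependent_pair_of_one_lt_finrank hrk hu0
    have hind := LinearIndependent.pair_iff.mp hw0
    obtain ⟨s1, s2, hne, hr⟩ := binary_root (T u0 u0 x) (T u0 w0 x) (T w0 w0 x)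
    refine ⟨(s1 • u0 + s2 • w0 : L), (s1 • u0 + s2 • w0).2, ?_, ?_⟩
    · intro h
      obtain ⟨h1, h2⟩ := hind s1 s2 (Subtype.ext h)
      rcases hne with h3 | h3
      · exact h3 h1
      · exact h3 h2
    · rw [Submodule.coe_add, Submodule.coe_smul, Submodule.coe_smul]
      simp only [map_add, map_smul, LinearMap.add_apply, LinearMap.smul_apply, smul_eq_mul]
      rw [hT.s1 w0 u0 x]
      linear_combination hr
  obtain ⟨w0, hw0⟩ := exists_linearIndependent_pair_of_one_lt_finrank hrk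
    (x := (⟨u, huL⟩ : L)) (fun h => hu0 (congrArg Subtype.val h))
  obtain ⟨w, hwL, hindw⟩ : ∃ w ∈ L, ∀ r s : ℂ, r • u + s • w = 0 → r = 0 ∧ s = 0 := by
    refine ⟨w0, w0.2, fun r s h => ?_⟩
    exact LinearIndependent.pair_iff.mp hw0 r s (Subtype.ext h)
  -- abbreviations
  have hq0 : T u u y ≠ 0 := hsm u huL hu0 hux
  have hdet : T u u y * (T w w x) ^ 2 - 4 * T u w y * T u w x * T w w x +
      4 * T w w y * (T u w x) ^ 2 ≠ 0 := by
    by_cases hp : T u w x = 0 ∧ T w w x = 0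
    · exfalso
      obtain ⟨s1, s2, hne, hr⟩ := binary_root (T u u y) (T u w y) (T w w y)
      refine hsm (s1 • u + s2 • w) (L.add_mem (L.smul_mem _ huL) (L.smul_mem _ hwL)) ?_ ?_ ?_
      · intro h
        obtain ⟨h1, h2⟩ := hindw s1 s2 h
        rcases hne with h3 | h3
        · exact h3 h1
        · exact h3 h2
      · simp only [map_add, map_smul, LinearMap.add_apply, LinearMap.smul_apply, smul_eq_mul]
        rw [hT.s1 w u x, hux, hp.1, hp.2]
        ring
      · simp only [map_add, map_smul, LinearMap.add_apply, LinearMap.smul_apply, smul_eq_mul]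
        rw [hT.s1 w u y]
        linear_combination hr
    · intro h
      refine hsm (T w w x • u + (-2 * T u w x) • w)
        (L.add_mem (L.smul_mem _ huL) (L.smul_mem _ hwL)) ?_ ?_ ?_
      · intro h'
        obtain ⟨h1, h2⟩ := hindw _ _ h'
        apply hp
        refine ⟨?_, h1⟩
        linear_combination (-1 / 2 : ℂ) * h2
      · simp only [map_add, map_smul, LinearMap.add_apply, LinearMap.smul_apply, smul_eq_mul]
        rw [hT.s1 w u x, hux]
        ring
      · simp only [map_add, map_smul, LinearMap.add_apply, LinearMap.smul_apply, smul_eq_mul]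
        rw [hT.s1 w u y]
        linear_combination h
  have g0 : T u u u = 0 := hL u huL
  have g1 : T u u w = 0 := polar hT hL huL hwL
  have g2 : T u w w = 0 := polar3 hT hL huL hwL hwL
  have g3 : T w w w = 0 := hL w hwL
  -- independence of the deformed pairs
  have hi : ∀ z : C5, ∀ r s : ℂ, r • uu u x y z + s • ww w x y z = 0 → r = 0 ∧ s = 0 := by
    intro z r s h
    apply hindw
    have h1 : r • u + s • w = -(r • (z.2.1 • x + z.2.2.1 • y) +
        s • (z.2.2.2.1 • x + z.2.2.2.2 • y)) := by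
      rw [eq_neg_iff_add_eq_zero, ← h]
      simp only [uu, ww, smul_add]
      abel
    have h2 : r • u + s • w ∈ L ⊓ L' := by
      refine ⟨L.add_mem (L.smul_mem _ huL) (L.smul_mem _ hwL), ?_⟩
      change _ ∈ L'
      rw [h1]
      exact L'.neg_mem (L'.add_mem
        (L'.smul_mem _ (L'.add_mem (L'.smul_mem _ hxL) (L'.smul_mem _ hyL)))
        (L'.smul_mem _ (L'.add_mem (L'.smul_mem _ hxL) (L'.smul_mem _ hyL))))
    rw [hc.inf_eq_bot] at h2
    exact (Submodule.mem_bot ℂ).mp h2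
  -- the derivative is injective
  set f' := fderiv ℂ (GG T D u w x y) 0 with hf'
  have hfst : ∀ v : C5, (f' v).1 = v.1 := by
    intro v
    have h1 : HasFDerivAt (GG T D u w x y) f' 0 :=
      ((contDiff_GG T D u w x y).differentiable one_ne_zero 0).hasFDerivAt
    have h2' : HasFDerivAt (fun z : C5 => (GG T D u w x y z).1)
        ((ContinuousLinearMap.fst ℂ ℂ _).comp f') 0 := h1.fst
    have h2 : HasFDerivAt (fun z : C5 => z.1) ((ContinuousLinearMap.fst ℂ ℂ _).comp f') 0 := h2'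
    have h3 : HasFDerivAt (fun z : C5 => z.1) (ContinuousLinearMap.fst ℂ ℂ (ℂ × ℂ × ℂ × ℂ)) 0 :=
      (ContinuousLinearMap.fst ℂ ℂ (ℂ × ℂ × ℂ × ℂ)).hasFDerivAt
    have h4 := h2.unique h3
    have h5 := congrArg (fun l => l v) h4
    exact h5
  have hinj : Function.Injective f' := by
    rw [injective_iff_map_eq_zero]
    intro v hv
    have hv1 : v.1 = 0 := by rw [← hfst v, hv]; rfl
    have h := fderiv_comp (D := D) hT u w x y v g0 g1 g2 g3 hv1
    rw [← hf', hv] at h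
    have e0 := (congrArg (fun z : C5 => z.2.1) h).symm
    have e1 := (congrArg (fun z : C5 => z.2.2.1) h).symm
    have e2 := (congrArg (fun z : C5 => z.2.2.2.1) h).symm
    have e3 := (congrArg (fun z : C5 => z.2.2.2.2) h).symm
    simp only [map_add, map_smul, smul_eq_mul, hux, Prod.snd_zero, Prod.fst_zero] at e0 e1 e2 e3
    obtain ⟨k1, k2, k3, k4⟩ := inj_core (α := v.2.1) (β := v.2.2.1) (γ := v.2.2.2.1)
      (δ := v.2.2.2.2) hq0 hdet (by linear_combination (1 / 3 : ℂ) * e0)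
      (by linear_combination e1) (by linear_combination e2) (by linear_combination (1 / 3 : ℂ) * e3)
    exact Prod.ext hv1 (Prod.ext k1 (Prod.ext k2 (Prod.ext k3 k4)))
  have hsurj : Function.Surjective f' :=
    (LinearMap.injective_iff_surjective (f := (f' : C5 →ₗ[ℂ] C5))).mp hinj
  have hstrict : HasStrictFDerivAt (GG T D u w x y) f' 0 :=
    (contDiff_GG T D u w x y).contDiffAt.hasStrictFDerivAt one_ne_zero
  have hmap := hstrict.map_nhds_eq_of_surj (LinearMap.range_eq_top.mpr hsurj)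
  have hG0 : GG T D u w x y 0 = 0 := by
    simp only [GG, uu, ww, Prod.snd_zero, Prod.fst_zero, zero_smul, add_zero, g0, g1, g2, g3]
    rfl
  rw [hG0] at hmap
  have hrange : Set.range (GG T D u w x y) ∈ 𝓝 (0 : C5) := by
    rw [← hmap]
    exact Filter.range_mem_map
  have hcont : Filter.Tendsto (fun τ : ℂ => ((τ, 0, 0, 0, 0) : C5)) (𝓝 0) (𝓝 (0 : C5)) := by
    have : Continuous (fun τ : ℂ => ((τ, 0, 0, 0, 0) : C5)) := by fun_prop
    exact this.tendsto 0
  have hev := hcont hrange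
  filter_upwards [hev] with τ hτ
  obtain ⟨z, hz⟩ := hτ
  have e0 := congrArg (fun z : C5 => z.1) hz
  have e1 := congrArg (fun z : C5 => z.2.1) hz
  have e2 := congrArg (fun z : C5 => z.2.2.1) hz
  have e3 := congrArg (fun z : C5 => z.2.2.2.1) hz
  have e4 := congrArg (fun z : C5 => z.2.2.2.2) hz
  simp only [GG] at e0 e1 e2 e3 e4
  rw [e0] at e1 e2 e3 e4
  exact hasLine_of_pair (sym_add hT hD τ) (hi z) e1 e2 e3 e4

end Vale.Agent.P287.H673
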