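import Vale.Agent.P287.H673.Line1
import Vale.Agent.P287.H673.Line2

/-!
P287, helper673: every cubic surface contains a line, part 3.
-/

namespace Vale.Agent.P287.H673

open Finset Topology

abbrev E4 := EuclideanSpace ℂ (Fin 4)

noncomputable abbrev bb : Module.Basis (Fin 4) ℂ E4 := (EuclideanSpace.basisFun (Fin 4) ℂ).toBasis

theorem expand {V : Type*} [AddCommGroup V] [Module ℂ V] (b : Module.Basis (Fin 4) ℂ V) (T : Tri V)
    (x y z : V) : T x y z = ∑ i, ∑ j, ∑ k,
      (b.repr x i * b.repr y j * b.repr z k) * T (b i) (b j) (b k) := by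
  have h1 : T x y z = ∑ i, b.repr x i * T (b i) y z := by
    conv_lhs => rw [← b.sum_repr x]
    simp only [map_sum, LinearMap.sum_apply, map_smul, LinearMap.smul_apply, smul_eq_mul]
  have h2 : ∀ i, T (b i) y z = ∑ j, b.repr y j * T (b i) (b j) z := by
    intro i
    conv_lhs => rw [← b.sum_repr y]
    simp only [map_sum, LinearMap.sum_apply, map_smul, LinearMap.smul_apply, smul_eq_mul]
  have h3 : ∀ i j, T (b i) (b j) z = ∑ k, b.repr z k * T (b i) (b j) (b k) := by
    intro i j
    conv_lhs => rw [← b.sum_repr z]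
    simp only [map_sum, map_smul, smul_eq_mul]
  rw [h1]
  simp only [h2, h3, Finset.mul_sum]
  refine Finset.sum_congr rfl fun i _ => Finset.sum_congr rfl fun j _ =>
    Finset.sum_congr rfl fun k _ => ?_
  ring

theorem continuous_tri {X : Type*} [TopologicalSpace X] (T : Tri E4) {f g h : X → E4}
    (hf : Continuous f) (hg : Continuous g) (hh : Continuous h) :
    Continuous fun x => T (f x) (g x) (h x) := by
  have hc : ∀ i, Continuous fun x : E4 => bb.repr x i := fun i =>
    LinearMap.continuous_of_finiteDimensional (bb.coord i)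
  have e : (fun x => T (f x) (g x) (h x)) = fun x => ∑ i, ∑ j, ∑ k,
      (bb.repr (f x) i * bb.repr (g x) j * bb.repr (h x) k) * T (bb i) (bb j) (bb k) :=
    funext fun x => expand bb T _ _ _
  rw [e]
  refine continuous_finsetSum _ fun i _ => continuous_finsetSum _ fun j _ =>
    continuous_finsetSum _ fun k _ => ?_
  exact ((((hc i).comp hf).mul ((hc j).comp hg)).mul ((hc k).comp hh)).mul continuous_const

def KK : Set (E4 × E4) := {p | ‖p.1‖ = 1 ∧ ‖p.2‖ = 1 ∧ inner ℂ p.1 p.2 = 0}

theorem compact_KK : IsCompact KK := by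
  apply Metric.isCompact_of_isClosed_isBounded
  · refine IsClosed.inter ?_ (IsClosed.inter ?_ ?_)
    · exact isClosed_eq (by fun_prop) continuous_const
    · exact isClosed_eq (by fun_prop) continuous_const
    · exact isClosed_eq (by fun_prop) continuous_const
  · refine (Metric.isBounded_closedBall (x := (0 : E4 × E4)) (r := 1)).subset ?_
    rintro p ⟨h1, h2, -⟩
    rw [mem_closedBall_zero_iff, Prod.norm_def, h1, h2, max_self]

theorem hasLine_iff {T : Tri E4} (hT : Sym3 T) : HasLine T ↔ ∃ p : KK,
    T p.1.1 p.1.1 p.1.1 = 0 ∧ T p.1.1 p.1.1 p.1.2 = 0 ∧ T p.1.1 p.1.2 p.1.2 = 0 ∧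
      T p.1.2 p.1.2 p.1.2 = 0 := by
  constructor
  · rintro ⟨L, hL2, hL⟩
    let b := (stdOrthonormalBasis ℂ L).reindex (finCongr hL2)
    have ho := b.orthonormal
    have h1 : ‖((b 0 : L) : E4)‖ = 1 := ho.1 0
    have h2 : ‖((b 1 : L) : E4)‖ = 1 := ho.1 1
    have h3 : inner ℂ ((b 0 : L) : E4) ((b 1 : L) : E4) = 0 := by
      rw [← Submodule.coe_inner]
      exact ho.2 (by decide)
    refine ⟨⟨((b 0 : L), (b 1 : L)), h1, h2, h3⟩, ?_⟩
    exact ⟨hL _ (b 0).2, polar hT hL (b 0).2 (b 1).2, polar3 hT hL (b 0).2 (b 1).2 (b 1).2,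
      hL _ (b 1).2⟩
  · rintro ⟨⟨⟨u, w⟩, h1, h2, h3⟩, g0, g1, g2, g3⟩
    refine hasLine_of_pair hT ?_ g0 g1 g2 g3
    intro r s h
    have e1 := congrArg (fun z => inner ℂ u z) h
    have e2 := congrArg (fun z => inner ℂ w z) h
    simp only [inner_add_right, inner_smul_right, inner_zero_right] at e1 e2
    have h4 : inner ℂ w u = 0 := by rw [← inner_conj_symm, h3, map_zero]
    have h1' : ‖u‖ = 1 := h1
    have h2' : ‖w‖ = 1 := h2
    have h3' : inner ℂ u w = 0 := h3
    rw [inner_self_eq_norm_sq_to_K, h1', h3'] at e1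
    rw [inner_self_eq_norm_sq_to_K, h2', h4] at e2
    constructor
    · simpa using e1
    · simpa using e2

theorem closed_line {T D : Tri E4} (hT : Sym3 T) (hD : Sym3 D) :
    IsClosed {t : ℂ | HasLine (T + t • D)} := by
  have : CompactSpace KK := isCompact_iff_compactSpace.mp compact_KK
  have hset : {t : ℂ | HasLine (T + t • D)} = Prod.fst '' {q : ℂ × KK |
      (T + q.1 • D) q.2.1.1 q.2.1.1 q.2.1.1 = 0 ∧ (T + q.1 • D) q.2.1.1 q.2.1.1 q.2.1.2 = 0 ∧
      (T + q.1 • D) q.2.1.1 q.2.1.2 q.2.1.2 = 0 ∧ (T + q.1 • D) q.2.1.2 q.2.1.2 q.2.1.2 = 0} := by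
    ext t
    rw [Set.mem_ofPred_eq, hasLine_iff (sym_add hT hD t)]
    constructor
    · rintro ⟨p, hp⟩
      exact ⟨(t, p), hp, rfl⟩
    · rintro ⟨⟨t', p⟩, hp, rfl⟩
      exact ⟨p, hp⟩
  rw [hset]
  apply isClosedMap_fst_of_compactSpace
  have hc1 : Continuous fun q : ℂ × KK => q.2.1.1 := by fun_prop
  have hc2 : Continuous fun q : ℂ × KK => q.2.1.2 := by fun_prop
  have hc : ∀ {f g h : ℂ × KK → E4}, Continuous f → Continuous g → Continuous h →
      IsClosed {q : ℂ × KK | (T + q.1 • D) (f q) (g q) (h q) = 0} := by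
    intro f g h hf hg hh
    refine isClosed_eq ?_ continuous_const
    have e : (fun q : ℂ × KK => (T + q.1 • D) (f q) (g q) (h q)) =
        fun q => T (f q) (g q) (h q) + q.1 * D (f q) (g q) (h q) := by
      funext q
      simp only [LinearMap.add_apply, LinearMap.smul_apply, smul_eq_mul]
    rw [e]
    exact (continuous_tri T hf hg hh).add (continuous_fst.mul (continuous_tri D hf hg hh))
  exact (hc hc1 hc1 hc1).inter ((hc hc1 hc1 hc2).inter ((hc hc1 hc2 hc2).inter (hc hc2 hc2 hc2)))

/-- the Fermat cubic surface -/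
noncomputable def fermat : Tri E4 :=
  ∑ i, (bb.coord i).smulRight ((bb.coord i).smulRight (bb.coord i))

theorem fermat_apply (x y z : E4) : fermat x y z = ∑ i, x i * (y i * z i) := by
  simp only [fermat, LinearMap.sum_apply, LinearMap.smulRight_apply, LinearMap.smul_apply,
    smul_eq_mul]
  refine Finset.sum_congr rfl fun i _ => ?_
  simp

theorem fermat_sym : Sym3 fermat := by
  constructor
  · intro x y z
    rw [fermat_apply, fermat_apply]
    exact Finset.sum_congr rfl fun i _ => by ring
  · intro x y z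
    rw [fermat_apply, fermat_apply]
    exact Finset.sum_congr rfl fun i _ => by ring

theorem fermat_line : HasLine fermat := by
  refine hasLine_of_pair fermat_sym (u := !₂[1, -1, 0, 0]) (w := !₂[0, 0, 1, -1]) ?_ ?_ ?_ ?_ ?_
  · intro r s h
    have h1 := congrArg (fun z : E4 => z 0) h
    have h2 := congrArg (fun z : E4 => z 2) h
    simp at h1 h2
    exact ⟨h1, h2⟩
  all_goals
    rw [fermat_apply, Fin.sum_univ_four]
    simp

/-- every cubic surface contains a line -/
theorem hasLine_all {T : Tri E4} (hT : Sym3 T) : HasLine T := by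
  set D : Tri E4 := T - fermat with hD'
  have hD : Sym3 D := by
    constructor
    · intro x y z
      simp only [hD', LinearMap.sub_apply]
      rw [hT.s1, fermat_sym.s1]
    · intro x y z
      simp only [hD', LinearMap.sub_apply]
      rw [hT.s2, fermat_sym.s2]
  set A : Set ℂ := {t : ℂ | HasLine (fermat + t • D)} with hA
  have hAc : IsClosed A := closed_line fermat_sym hD
  set S : Set ℂ := {t : ℂ | ∃ v : Fin 4 → ℂ, v ≠ 0 ∧
      ∀ i, v i ^ 2 + t * ∑ a, ∑ b, D (bb a) (bb b) (bb i) * (v a * v b) = 0} with hS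
  have hSf : S.Finite := finite_singular _
  have hconn : IsPreconnected Sᶜ :=
    (hSf.countable.isPathConnected_compl_of_one_lt_rank
      (by rw [Complex.rank_real_complex]; exact Nat.one_lt_ofNat)).isConnected.isPreconnected
  have hopen : ∀ t ∈ Sᶜ, t ∈ A → t ∈ interior A := by
    intro t ht htA
    have hsm : ∀ v : E4, v ≠ 0 → ∃ w, (fermat + t • D) v v w ≠ 0 := by
      intro v hv
      by_contra hcon
      push Not at hcon
      apply ht
      refine ⟨fun i => v i, ?_, ?_⟩
      · intro h
        apply hv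
        ext i
        exact congrFun h i
      · intro i
        have h1 := hcon (bb i)
        rw [LinearMap.add_apply, LinearMap.add_apply, LinearMap.add_apply, LinearMap.smul_apply,
          LinearMap.smul_apply, LinearMap.smul_apply, smul_eq_mul, fermat_apply,
          expand bb D v v (bb i)] at h1
        have e1 : ∑ k, v k * (v k * (bb i) k) = v i ^ 2 := by
          rw [Finset.sum_eq_single i]
          · simp [pow_two]
          · intro k _ hk
            simp [hk]
          · intro h; exact absurd (Finset.mem_univ i) h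
        have e2 : ∑ a, ∑ b, ∑ k, (bb.repr v a * bb.repr v b * bb.repr (bb i) k) *
            D (bb a) (bb b) (bb k) = ∑ a, ∑ b, D (bb a) (bb b) (bb i) * (v a * v b) := by
          refine Finset.sum_congr rfl fun a _ => Finset.sum_congr rfl fun b _ => ?_
          rw [Finset.sum_eq_single i]
          · rw [Module.Basis.repr_self, Finsupp.single_eq_same]
            have h3 : bb.repr v a = v a := by simp
            have h4 : bb.repr v b = v b := by simp
            rw [h3, h4]
            ring
          · intro k _ hk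
            rw [Module.Basis.repr_self, Finsupp.single_eq_of_ne hk]
            ring
          · intro h; exact absurd (Finset.mem_univ i) h
        rw [e1, e2] at h1
        exact h1
    have hev := eventually_line (V := E4) (by simp) (sym_add fermat_sym hD t) hD hsm htA
    rw [mem_interior_iff_mem_nhds]
    have hcont : Filter.Tendsto (fun s : ℂ => s - t) (𝓝 t) (𝓝 0) := by
      have : Continuous (fun s : ℂ => s - t) := by fun_prop
      have h := this.tendsto t
      rwa [sub_self] at h
    filter_upwards [hcont.eventually hev] with s hs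
    have e : fermat + t • D + (s - t) • D = fermat + s • D := by
      refine LinearMap.ext fun x => LinearMap.ext fun y => LinearMap.ext fun z => ?_
      simp only [LinearMap.add_apply, LinearMap.smul_apply, smul_eq_mul]
      ring
    rw [e] at hs
    exact hs
  have h0A : (0 : ℂ) ∈ A := by
    rw [hA, Set.mem_ofPred_eq, zero_smul, add_zero]
    exact fermat_line
  have h0S : (0 : ℂ) ∈ Sᶜ := by
    rintro ⟨v, hv, h⟩
    apply hv
    funext i
    have := h i
    rw [zero_mul, add_zero] at this
    exact pow_eq_zero_iff two_ne_zero |>.mp this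
  have hsub : Sᶜ ⊆ interior A := by
    refine hconn.subset_of_closure_inter_subset isOpen_interior ⟨0, h0S, hopen 0 h0S h0A⟩ ?_
    rintro t ⟨h1, h2⟩
    exact hopen t h2 (hAc.closure_subset_iff.mpr interior_subset h1)
  have hdense : Dense Sᶜ := hSf.countable.dense_compl ℂ
  have hAu : A = Set.univ := by
    rw [← hAc.closure_eq]
    exact (hdense.mono (hsub.trans interior_subset)).closure_eq
  have h1A : (1 : ℂ) ∈ A := by rw [hAu]; exact Set.mem_univ 1
  rw [hA, Set.mem_ofPred_eq, one_smul] at h1A
  have e : fermat + D = T := by rw [hD']; abel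
  rwa [e] at h1A

/-- pull-back of a trilinear form -/
noncomputable def pullTri {V W : Type*} [AddCommGroup V] [Module ℂ V] [AddCommGroup W] [Module ℂ W]
    (e : W →ₗ[ℂ] V) (T : Tri V) : Tri W where
  toFun x := LinearMap.mk₂ ℂ (fun y z => T (e x) (e y) (e z))
    (fun y y' z => by simp only [map_add, LinearMap.add_apply])
    (fun r y z => by simp only [map_smul, LinearMap.smul_apply])
    (fun y z z' => by simp only [map_add])
    (fun r y z => by simp only [map_smul])
  map_add' x x' := by
    refine LinearMap.ext fun y => LinearMap.ext fun z => ?_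
    simp only [LinearMap.mk₂_apply, map_add, LinearMap.add_apply]
  map_smul' r x := by
    refine LinearMap.ext fun y => LinearMap.ext fun z => ?_
    simp only [LinearMap.mk₂_apply, map_smul, LinearMap.smul_apply, RingHom.id_apply]

theorem pullTri_apply {V W : Type*} [AddCommGroup V] [Module ℂ V] [AddCommGroup W] [Module ℂ W]
    (e : W →ₗ[ℂ] V) (T : Tri V) (x y z : W) : pullTri e T x y z = T (e x) (e y) (e z) := rfl

/-- **Every cubic surface contains a line.** -/
theorem exists_line' {V : Type*} [AddCommGroup V] [Module ℂ V] (hV : Module.finrank ℂ V = 4)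
    {T : V →ₗ[ℂ] V →ₗ[ℂ] V →ₗ[ℂ] ℂ} (s1 : ∀ x y z, T x y z = T y x z)
    (s2 : ∀ x y z, T x y z = T x z y) :
    ∃ L : Submodule ℂ V, Module.finrank ℂ L = 2 ∧ ∀ w ∈ L, T w w w = 0 := by
  have : FiniteDimensional ℂ V := FiniteDimensional.of_finrank_pos (by omega)
  obtain ⟨e⟩ : Nonempty (E4 ≃ₗ[ℂ] V) := by
    apply FiniteDimensional.nonempty_linearEquiv_of_finrank_eq
    rw [hV]
    simp
  have hsym : Sym3 (pullTri (e : E4 →ₗ[ℂ] V) T) :=
    ⟨fun x y z => by simp only [pullTri_apply]; exact s1 _ _ _,
      fun x y z => by simp only [pullTri_apply]; exact s2 _ _ _⟩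
  obtain ⟨L, hL2, hL⟩ := hasLine_all hsym
  refine ⟨L.map (e : E4 →ₗ[ℂ] V), ?_, ?_⟩
  · rw [← hL2]
    exact LinearEquiv.finrank_map_eq e L
  · rintro w ⟨u, hu, rfl⟩
    exact hL u hu

/-- every smooth cubic surface contains a line -/
theorem exists_line {V : Type*} [AddCommGroup V] [Module ℂ V] (hV : Module.finrank ℂ V = 4)
    {T : V →ₗ[ℂ] V →ₗ[ℂ] V →ₗ[ℂ] ℂ} (s1 : ∀ x y z, T x y z = T y x z)
    (s2 : ∀ x y z, T x y z = T x z y) (_hs : ∀ v, v ≠ 0 → ∃ w, T v v w ≠ 0) :
    ∃ L : Submodule ℂ V, Module.finrank ℂ L = 2 ∧ ∀ w ∈ L, T w w w = 0 :=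
  exists_line' hV s1 s2

end Vale.Agent.P287.H673
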